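import Vale.Agent.P165.Uniqueness

/-!
# P151: symmetries, mass transport, fattenings, finite clusters
-/

namespace P151

open MeasureTheory ProbabilityTheory SimpleGraph P165
open scoped ENNReal Classical

variable {V : Type*}

/-- A group action by graph automorphisms, transitive and unimodular. -/
structure Unimod (G : SimpleGraph V) (Γ : Type*) [Group Γ] [MulAction Γ V] : Prop where
  adj : ∀ (g : Γ) (x y : V), G.Adj (g • x) (g • y) ↔ G.Adj x y
  trans : ∀ x y : V, ∃ g : Γ, g • x = y
  unimod : ∀ x y : V,
    {z | ∃ g : Γ, g • x = x ∧ g • y = z}.ncard = {z | ∃ g : Γ, g • y = y ∧ g • x = z}.ncard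

/-- The cluster of a vertex if finite. -/
noncomputable def kc (G : SimpleGraph V) (x : V) (ω : Set (Sym2 V)) : Option (Finset V) :=
  if h : (cluster G ω x).Finite then some h.toFinset else none

section Clusters

variable {G : SimpleGraph V} {x y z : V} {ω : Set (Sym2 V)}

lemma mem_cluster_self : x ∈ cluster G ω x := Reachable.refl x

lemma cluster_eq (h : (openGraph G ω).Reachable x y) : cluster G ω x = cluster G ω y := by
  ext z
  exact ⟨fun hz => h.symm.trans hz, fun hz => h.trans hz⟩

lemma kc_congr (h : (openGraph G ω).Reachable x y) : kc G x ω = kc G y ω := by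
  simp only [kc, cluster_eq h]

lemma kc_eq_some {S : Finset V} : kc G x ω = some S ↔ cluster G ω x = ↑S := by
  unfold kc
  split_ifs with h
  · simp only [Option.some.injEq]
    exact ⟨fun e => by rw [← e, Set.Finite.coe_toFinset],
      fun e => Finset.coe_injective (by rw [Set.Finite.coe_toFinset, e])⟩
  · simp only [false_iff]
    exact fun e => h (e ▸ S.finite_toSet)

lemma kc_eq_none : kc G x ω = none ↔ (cluster G ω x).Infinite := by
  unfold kc
  split_ifs with h
  · simpa using h
  · simpa using h

lemma mem_of_kc {S : Finset V} (h : kc G x ω = some S) :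
    y ∈ S ↔ (openGraph G ω).Reachable x y := by
  rw [← Finset.mem_coe, ← kc_eq_some.1 h]; rfl

lemma self_mem_of_kc {S : Finset V} (h : kc G x ω = some S) : x ∈ S :=
  (mem_of_kc h).2 (Reachable.refl x)

lemma kc_of_mem {S : Finset V} (h : kc G x ω = some S) (hy : y ∈ S) : kc G y ω = some S :=
  (kc_congr ((mem_of_kc h).1 hy)).symm.trans h

lemma reach_of_kc {S : Finset V} (hx : kc G x ω = some S) (hy : kc G y ω = some S) :
    (openGraph G ω).Reachable x y :=
  (mem_of_kc hx).1 (self_mem_of_kc hy)

lemma measurable_kc [G.LocallyFinite] [Countable V] (x : V) :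
    @Measurable _ (Option (Finset V)) _ ⊤ (kc G x) := by
  letI : MeasurableSpace (Option (Finset V)) := ⊤
  refine measurable_to_countable' fun o => ?_
  cases o with
  | none =>
    have : kc G x ⁻¹' {none} = infAt G x := by
      ext ω; simp [kc_eq_none, infAt]
    rw [this]; exact measurableSet_infAt G x
  | some S =>
    have : kc G x ⁻¹' {some S} = ⋂ y : V, if y ∈ S then conn G x y else (conn G x y)ᶜ := by
      ext ω
      simp only [Set.mem_preimage, Set.mem_singleton_iff, kc_eq_some, Set.mem_iInter]
      constructor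
      · intro h y
        by_cases hy : y ∈ S
        · rw [if_pos hy]; rw [← Finset.mem_coe, ← h] at hy; exact hy
        · rw [if_neg hy]; intro hc; apply hy; rw [← Finset.mem_coe, ← h]; exact hc
      · intro h
        ext y
        have := h y
        by_cases hy : y ∈ S
        · rw [if_pos hy] at this; exact ⟨fun _ => hy, fun _ => this⟩
        · rw [if_neg hy] at this; exact ⟨fun hc => absurd hc this, fun hc => absurd hc hy⟩
    rw [this]
    refine MeasurableSet.iInter fun y => ?_
    split_ifs
    · exact measurableSet_conn G x y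
    · exact (measurableSet_conn G x y).compl

lemma measurable_kc_comp [G.LocallyFinite] [Countable V] (x : V) {β : Type*} [MeasurableSpace β]
    (F : Option (Finset V) → β) : Measurable fun ω => F (kc G x ω) := by
  letI : MeasurableSpace (Option (Finset V)) := ⊤
  exact measurable_from_top.comp (measurable_kc x)

lemma measurableSet_kc [G.LocallyFinite] [Countable V] (x : V)
    (P : Option (Finset V) → Prop) : MeasurableSet {ω | P (kc G x ω)} :=
  measurableSet_setOfPred.2 (measurable_kc_comp x P)

lemma measurable_to_real_of_option [G.LocallyFinite] [Countable V] (x : V) {β : Type*}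
    [MeasurableSpace β] [Zero β] (F : Finset V → Set (Sym2 V) → β) (hF : ∀ S, Measurable (F S)) :
    Measurable fun ω => (kc G x ω).elim 0 (fun S => F S ω) := by
  let _ : MeasurableSpace (Option (Finset V)) := ⊤
  have h : Measurable fun q : Option (Finset V) × Set (Sym2 V) =>
      q.1.elim 0 (fun S => F S q.2) := by
    refine measurable_from_prod_countable_right fun o => ?_
    cases o with
    | none => exact measurable_const
    | some S => exact hF S
  exact h.comp ((measurable_kc x).prodMk measurable_id)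

lemma measurableSet_edge (e : Sym2 V) : MeasurableSet {ω : Set (Sym2 V) | e ∈ ω} :=
  measurableSet_setOfPred.2 (measurable_set_mem e)

end Clusters

section Fattening

variable (G : SimpleGraph V) [G.LocallyFinite]

/-- The vertices within distance `k` of `S`. -/
noncomputable def fat (S : Finset V) : ℕ → Finset V
  | 0 => S
  | k + 1 => fat S k ∪ (fat S k).biUnion fun x => G.neighborFinset x

lemma fat_subset_succ (S : Finset V) (k : ℕ) : fat G S k ⊆ fat G S (k + 1) :=
  Finset.subset_union_left

lemma fat_mono (S : Finset V) {j k : ℕ} (h : j ≤ k) : fat G S j ⊆ fat G S k := by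
  induction h with
  | refl => exact le_rfl
  | step _ ih => exact ih.trans (fat_subset_succ G S _)

lemma fat_adj {S : Finset V} {k : ℕ} {x y : V} (hx : x ∈ fat G S k) (h : G.Adj x y) :
    y ∈ fat G S (k + 1) :=
  Finset.mem_union_right _ (Finset.mem_biUnion.2 ⟨x, hx, (G.mem_neighborFinset x y).2 h⟩)

lemma mem_fat_iff {S : Finset V} : ∀ {k : ℕ} {y : V},
    y ∈ fat G S k ↔ ∃ x ∈ S, ∃ w : G.Walk x y, w.length ≤ k := by
  intro k
  induction k with
  | zero =>
    intro y
    constructor
    · exact fun h => ⟨y, h, Walk.nil, le_rfl⟩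
    · rintro ⟨x, hx, w, hw⟩
      cases w with
      | nil => exact hx
      | cons h p => simp at hw
  | succ k ih =>
    intro y
    constructor
    · intro h
      rcases Finset.mem_union.1 h with h | h
      · obtain ⟨x, hx, w, hw⟩ := ih.1 h
        exact ⟨x, hx, w, hw.trans (Nat.le_succ k)⟩
      · obtain ⟨z, hz, hzy⟩ := Finset.mem_biUnion.1 h
        obtain ⟨x, hx, w, hw⟩ := ih.1 hz
        exact ⟨x, hx, w.concat ((G.mem_neighborFinset z y).1 hzy), by simp; omega⟩
    · rintro ⟨x, hx, w, hw⟩
      by_cases hle : w.length ≤ k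
      · exact fat_subset_succ G S k (ih.2 ⟨x, hx, w, hle⟩)
      · cases hw' : w.reverse with
        | nil =>
          have := congrArg Walk.length hw'
          rw [Walk.length_reverse, Walk.length_nil] at this
          omega
        | cons h p =>
          have hl := congrArg Walk.length hw'
          simp at hl
          exact fat_adj G (ih.2 ⟨x, hx, p.reverse, by simp; omega⟩) h.symm

lemma card_fat_le {d : ℕ} (hd : ∀ x, (G.neighborFinset x).card ≤ d) (S : Finset V) :
    ∀ k, (fat G S k).card ≤ S.card * (d + 1) ^ k := by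
  intro k
  induction k with
  | zero => simp [fat]
  | succ k ih =>
    refine (Finset.card_union_le _ _).trans ?_
    have h2 : ((fat G S k).biUnion fun x => G.neighborFinset x).card ≤ (fat G S k).card * d :=
      Finset.card_biUnion_le.trans (by
        simpa [mul_comm] using Finset.sum_le_card_nsmul (fat G S k) _ d fun x _ => hd x)
    calc (fat G S k).card + ((fat G S k).biUnion fun x => G.neighborFinset x).card
        ≤ (fat G S k).card * (d + 1) := by rw [mul_add, mul_one, add_comm]; omega
      _ ≤ S.card * (d + 1) ^ k * (d + 1) := Nat.mul_le_mul_right _ ih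
      _ = S.card * (d + 1) ^ (k + 1) := by ring

end Fattening

section Sym

variable {G : SimpleGraph V} {Γ : Type*} [Group Γ] [MulAction Γ V]

/-- The automorphism given by a group element. -/
def auto (h : Unimod G Γ) (g : Γ) : G ≃g G :=
  ⟨MulAction.toPerm g, fun {a b} => h.adj g a b⟩

@[simp] lemma auto_apply (h : Unimod G Γ) (g : Γ) (x : V) : auto h g x = g • x := rfl

/-- The moved configuration. -/
def mv (h : Unimod G Γ) (g : Γ) (ω : Set (Sym2 V)) : Set (Sym2 V) := push (auto h g) ω

lemma mem_mv (h : Unimod G Γ) {g : Γ} {ω : Set (Sym2 V)} {x y : V} :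
    s(g • x, g • y) ∈ mv h g ω ↔ s(x, y) ∈ ω := by
  simp only [mv, push, Set.mem_preimage, Sym2.map_mk]
  rw [← auto_apply h g x, ← auto_apply h g y, RelIso.symm_apply_apply, RelIso.symm_apply_apply]

lemma reachable_mv (h : Unimod G Γ) {g : Γ} {ω : Set (Sym2 V)} {x y : V} :
    (openGraph G (mv h g ω)).Reachable (g • x) (g • y) ↔ (openGraph G ω).Reachable x y :=
  reachable_push (auto h g) ω x y

lemma cluster_mv (h : Unimod G Γ) (g : Γ) (ω : Set (Sym2 V)) (x : V) :
    cluster G (mv h g ω) (g • x) = (g • ·) '' cluster G ω x := by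
  ext z
  obtain ⟨y, rfl⟩ : ∃ y, g • y = z := ⟨g⁻¹ • z, smul_inv_smul g z⟩
  constructor
  · exact fun hz => ⟨y, (reachable_mv h).1 hz, rfl⟩
  · rintro ⟨y', hy', e⟩
    exact (reachable_mv h).2 (smul_left_cancel g e ▸ hy')

/-- The image of a finite set. -/
noncomputable def mvS (g : Γ) (S : Finset V) : Finset V := S.image (g • ·)

lemma card_mvS (g : Γ) (S : Finset V) : (mvS g S).card = S.card :=
  Finset.card_image_of_injective _ (MulAction.injective g)

lemma kc_mv (h : Unimod G Γ) (g : Γ) (ω : Set (Sym2 V)) (x : V) :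
    kc G (g • x) (mv h g ω) = (kc G x ω).map (mvS g) := by
  cases hS : kc G x ω with
  | none =>
    simp only [Option.map_none, kc_eq_none, cluster_mv]
    exact (kc_eq_none.1 hS).image (MulAction.injective g).injOn
  | some S =>
    simp only [Option.map_some, kc_eq_some, cluster_mv, mvS, Finset.coe_image, kc_eq_some.1 hS]

variable [G.LocallyFinite]

lemma fat_mv (h : Unimod G Γ) (g : Γ) (S : Finset V) :
    ∀ k, fat G (mvS g S) k = mvS g (fat G S k) := by
  intro k
  induction k with
  | zero => rfl
  | succ k ih =>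
    ext z
    obtain ⟨y, rfl⟩ : ∃ y, g • y = z := ⟨g⁻¹ • z, smul_inv_smul g z⟩
    rw [fat, ih, fat]
    simp only [mvS, Finset.mem_union, Finset.mem_biUnion, Finset.mem_image,
      SimpleGraph.mem_neighborFinset, (MulAction.injective g).eq_iff, exists_eq_right]
    constructor
    · rintro (hy | ⟨x, ⟨a, ha, rfl⟩, hxy⟩)
      · exact Or.inl hy
      · exact Or.inr ⟨a, ha, (h.adj g a y).1 hxy⟩
    · rintro (hy | ⟨a, ha, hay⟩)
      · exact Or.inl hy
      · exact Or.inr ⟨g • a, ⟨a, ha, rfl⟩, (h.adj g a y).2 hay⟩

omit [G.LocallyFinite] in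
lemma map_mv (h : Unimod G Γ) (g : Γ) (p : unitInterval) :
    (setBer(G.edgeSet, p)).map (mv h g) = setBer(G.edgeSet, p) :=
  map_push (auto h g) p

omit [G.LocallyFinite] in
lemma measurable_mv (h : Unimod G Γ) (g : Γ) : Measurable (mv h g) :=
  measurable_push (auto h g)

lemma orbit_finite (h : Unimod G Γ) (hc : G.Connected) (x y : V) :
    {z | ∃ g : Γ, g • x = x ∧ g • y = z}.Finite := by
  obtain ⟨w⟩ := hc.preconnected x y
  refine (fat G {x} w.length).finite_toSet.subset ?_
  rintro z ⟨g, hx, rfl⟩
  refine (mem_fat_iff G).2 ⟨x, Finset.mem_singleton_self x, ?_⟩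
  have hx' : (auto h g).toHom x = x := hx
  exact ⟨(w.map (auto h g).toHom).copy hx' rfl,
    ((Walk.length_copy _ _ _).trans (Walk.length_map _ _)).le⟩

/-- Mass transport. -/
lemma mass_transport (h : Unimod G Γ) (hc : G.Connected) (F : V → V → ℝ≥0∞)
    (hF : ∀ (g : Γ) x y, F (g • x) (g • y) = F x y) (o : V) :
    ∑' y, F o y = ∑' y, F y o := by
  set b : V → ℕ := fun z => {w | ∃ g : Γ, g • o = o ∧ g • z = w}.ncard with hb
  set R : V → V → Prop := fun y z => ∃ g : Γ, g • y = o ∧ g • o = z with hR
  have hsymm : ∀ y z, R y z → R z y := by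
    rintro y z ⟨g, h1, h2⟩
    exact ⟨g⁻¹, by rw [← h2, inv_smul_smul], by rw [← h1, inv_smul_smul]⟩
  have hval : ∀ y z, R y z → F y o = F o z := by
    rintro y z ⟨g, h1, h2⟩
    rw [← hF g y o, h1, h2]
  have hfib : ∀ y z, R y z → {w | R y w} = {w | ∃ g : Γ, g • o = o ∧ g • z = w} := by
    rintro y z ⟨g, h1, h2⟩
    ext w
    constructor
    · rintro ⟨k, k1, k2⟩
      exact ⟨k * g⁻¹, by rw [mul_smul, inv_smul_eq_iff.2 h1.symm, k1],
        by rw [mul_smul, inv_smul_eq_iff.2 h2.symm, k2]⟩
    · rintro ⟨k, k1, k2⟩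
      exact ⟨k * g, by rw [mul_smul, h1, k1], by rw [mul_smul, h2, k2]⟩
  have hbb : ∀ y z, R y z → b z = b y := by
    rintro y z ⟨g, h1, h2⟩
    calc b z = {w | ∃ k : Γ, k • z = z ∧ k • o = w}.ncard := h.unimod o z
      _ = {w | ∃ k : Γ, k • o = o ∧ k • y = w}.ncard := by
        refine (Set.ncard_congr (fun w _ => g • w) ?_ ?_ ?_).symm
        · rintro w ⟨k, k1, k2⟩
          exact ⟨g * k * g⁻¹, by rw [mul_smul, mul_smul, ← h2, inv_smul_smul, k1],
            by rw [mul_smul, mul_smul, ← h1, inv_smul_smul, k2]⟩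
        · exact fun a a' _ _ e => smul_left_cancel g e
        · rintro w ⟨k, k1, k2⟩
          refine ⟨g⁻¹ • w, ⟨g⁻¹ * k * g, ?_, ?_⟩, smul_inv_smul g w⟩
          · rw [mul_smul, mul_smul, h2, k1, ← h2, inv_smul_smul]
          · rw [mul_smul, mul_smul, h1, k2]
  have hpos : ∀ z, b z ≠ 0 := fun z =>
    ((Set.ncard_pos (orbit_finite h hc o z)).2 ⟨z, 1, one_smul _ _, one_smul _ _⟩).ne'
  have hcard : ∀ y z, R y z → {w | R y w}.encard = (b z : ℕ∞) := fun y z hyz => by
    rw [hfib y z hyz, hb, (orbit_finite h hc o z).cast_ncard_eq]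
  have hone : ∀ y, ∑' z, (if R y z then (b z : ℝ≥0∞)⁻¹ else 0) = 1 := by
    intro y
    obtain ⟨g, hg⟩ := h.trans y o
    have hyz : R y (g • o) := ⟨g, hg, rfl⟩
    have hfin : {w | R y w}.Finite := by rw [hfib _ _ hyz]; exact orbit_finite h hc o _
    have hsum : ∀ z, (if R y z then (b z : ℝ≥0∞)⁻¹ else 0) =
        if z ∈ hfin.toFinset then (b y : ℝ≥0∞)⁻¹ else 0 := fun z => by
      by_cases hz : R y z
      · rw [if_pos hz, if_pos (hfin.mem_toFinset.2 hz), hbb y z hz]
      · rw [if_neg hz, if_neg (fun h' => hz (hfin.mem_toFinset.1 h'))]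
    rw [tsum_congr hsum, tsum_eq_sum (s := hfin.toFinset) fun z hz => if_neg hz,
      Finset.sum_congr rfl fun z hz => if_pos hz, Finset.sum_const, nsmul_eq_mul]
    have : hfin.toFinset.card = b y := by
      rw [← hbb y _ hyz, ← Set.ncard_eq_toFinset_card _ hfin, hfib _ _ hyz]
    rw [this, ENNReal.mul_inv_cancel (Nat.cast_ne_zero.2 (hpos y)) (ENNReal.natCast_ne_top _)]
  calc ∑' y, F o y = ∑' z, F o z * ∑' y, (if R z y then (b y : ℝ≥0∞)⁻¹ else 0) := by
        simp only [hone, mul_one]
    _ = ∑' z, ∑' y, F o z * (if R z y then (b y : ℝ≥0∞)⁻¹ else 0) :=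
        tsum_congr fun z => ENNReal.tsum_mul_left.symm
    _ = ∑' y, ∑' z, F o z * (if R z y then (b y : ℝ≥0∞)⁻¹ else 0) := ENNReal.tsum_comm
    _ = ∑' y, ∑' z, F y o * (if R y z then (b z : ℝ≥0∞)⁻¹ else 0) := by
        refine tsum_congr fun y => tsum_congr fun z => ?_
        by_cases hyz : R y z
        · rw [if_pos hyz, if_pos (hsymm y z hyz), hval y z hyz, hbb y z hyz]
        · rw [if_neg hyz, if_neg fun h' => hyz (hsymm z y h'), mul_zero, mul_zero]
    _ = ∑' y, F y o := by simp only [ENNReal.tsum_mul_left, hone, mul_one]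

/-- Transport between a vertex and the vertices assigned to it. -/
lemma transport_integral (h : Unimod G Γ) (hc : G.Connected) [Countable V] (p : unitInterval)
    (f : Set (Sym2 V) → V → V → ℝ≥0∞) (hf : ∀ x y, Measurable fun ω => f ω x y)
    (hinv : ∀ (g : Γ) ω x y, f (mv h g ω) (g • x) (g • y) = f ω x y) (o : V) :
    ∫⁻ ω, ∑' y, f ω o y ∂setBer(G.edgeSet, p) =
      ∫⁻ ω, ∑' y, f ω y o ∂setBer(G.edgeSet, p) := by
  rw [lintegral_tsum fun y => (hf o y).aemeasurable,
    lintegral_tsum fun y => (hf y o).aemeasurable]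
  refine mass_transport h hc (fun x y => ∫⁻ ω, f ω x y ∂setBer(G.edgeSet, p)) (fun g x y => ?_) o
  conv_lhs => rw [← map_mv h g p, lintegral_map (hf _ _) (measurable_mv h g)]
  simp only [hinv]

end Sym

section Split

lemma map_update_prod {ι α : Type*} [DecidableEq ι] [MeasurableSpace α] (ν : ι → Measure α)
    [∀ i, IsProbabilityMeasure (ν i)] (i : ι) :
    ((Measure.infinitePi ν).prod (ν i)).map (fun q => Function.update q.1 i q.2) =
      Measure.infinitePi ν := by
  have hm : Measurable fun q : (ι → α) × α => Function.update q.1 i q.2 := by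
    refine measurable_pi_lambda _ fun j => ?_
    by_cases hji : j = i
    · subst hji; simpa using measurable_snd
    · simpa [Function.update_of_ne hji] using (measurable_pi_apply j).fun_comp measurable_fst
  refine Measure.eq_infinitePi _ fun s t ht => ?_
  rw [Measure.map_apply hm (.pi s.countable_toSet fun _ _ => ht _)]
  by_cases hi : i ∈ s
  · have : (fun q : (ι → α) × α => Function.update q.1 i q.2) ⁻¹' Set.pi (s : Set ι) t =
        Set.pi ((s.erase i : Finset ι) : Set ι) t ×ˢ t i := by
      ext ⟨y, x⟩
      simp only [Set.mem_preimage, Set.mem_pi, Finset.mem_coe, Set.mem_prod, Finset.mem_erase]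
      constructor
      · intro h'
        exact ⟨fun j hj => by simpa [Function.update_of_ne hj.1] using h' j hj.2,
          by simpa using h' i hi⟩
      · rintro ⟨h1, h2⟩ j hj
        by_cases hji : j = i
        · subst hji; simpa using h2
        · simpa [Function.update_of_ne hji] using h1 j ⟨hji, hj⟩
    rw [this, Measure.prod_prod, Measure.infinitePi_pi _ (fun j _ => ht j),
      Finset.prod_erase_mul _ (fun j => ν j (t j)) hi]
  · have : (fun q : (ι → α) × α => Function.update q.1 i q.2) ⁻¹' Set.pi (s : Set ι) t =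
        Set.pi (s : Set ι) t ×ˢ Set.univ := by
      ext ⟨y, x⟩
      simp only [Set.mem_preimage, Set.mem_pi, Finset.mem_coe, Set.mem_prod, Set.mem_univ, and_true]
      exact forall₂_congr fun j hj => by
        rw [Function.update_of_ne (fun h' : j = i => hi (h' ▸ hj))]
    rw [this, Measure.prod_prod, Measure.infinitePi_pi _ (fun j _ => ht j), measure_univ, mul_one]

/-- Conditioning on one edge. -/
lemma split_edge (E : Set (Sym2 V)) (p : unitInterval) {e : Sym2 V} (he : e ∈ E)
    {f : Set (Sym2 V) → ℝ≥0∞} (hf : Measurable f) :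
    ∫⁻ ω, f ω ∂setBer(E, p) =
      ENNReal.ofReal p * ∫⁻ ω, f (insert e ω) ∂setBer(E, p) +
        ENNReal.ofReal (1 - p) * ∫⁻ ω, f (ω \ {e}) ∂setBer(E, p) := by
  set ν : Sym2 V → Measure Prop := fun i =>
    unitInterval.toNNReal p • Measure.dirac (i ∈ E) +
      unitInterval.toNNReal (unitInterval.symm p) • Measure.dirac False with hν
  haveI : ∀ i, IsProbabilityMeasure (ν i) := fun i => ⟨by simp [hν]⟩
  have hS : Measurable fun q : Sym2 V → Prop => {i | q i} := by fun_prop
  have hins : Measurable fun ω : Set (Sym2 V) => insert e ω :=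
    measurable_set_iff.2 fun i => by
      simp only [Set.mem_insert_iff]; exact measurable_const.or (measurable_set_mem i)
  have hera : Measurable fun ω : Set (Sym2 V) => ω \ {e} :=
    measurable_set_iff.2 fun i => by
      simp only [Set.mem_sdiff]; exact (measurable_set_mem i).and measurable_const
  rw [setBernoulli_eq_map, lintegral_map hf hS, lintegral_map (hf.fun_comp hins) hS,
    lintegral_map (hf.fun_comp hera) hS]
  conv_lhs => rw [← map_update_prod ν e]
  have hm : Measurable fun q : (Sym2 V → Prop) × Prop => Function.update q.1 e q.2 := by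
    refine measurable_pi_lambda _ fun j => ?_
    by_cases hji : j = e
    · subst hji; simpa using measurable_snd
    · simpa [Function.update_of_ne hji] using (measurable_pi_apply j).fun_comp measurable_fst
  rw [lintegral_map (hf.fun_comp hS) hm, lintegral_prod _ ((hf.fun_comp hS).fun_comp hm).aemeasurable,
    ← lintegral_const_mul' _ _ ENNReal.ofReal_ne_top,
    ← lintegral_const_mul' _ _ ENNReal.ofReal_ne_top,
    ← lintegral_add_left ((hf.fun_comp (hins.fun_comp hS)).const_mul _)]
  refine lintegral_congr fun q => ?_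
  simp only [hν, lintegral_add_measure, lintegral_smul_measure, lintegral_dirac]
  have h1 : {i | Function.update q e (e ∈ E) i} = insert e {i | q i} := by
    ext i
    by_cases hi : i = e
    · subst hi; simp [he]
    · simp [hi]
  have h2 : {i | Function.update q e False i} = {i | q i} \ {e} := by
    ext i
    by_cases hi : i = e
    · subst hi; simp
    · simp [hi]
  have c1 : ((unitInterval.toNNReal p : NNReal) : ℝ≥0∞) = ENNReal.ofReal p :=
    (ENNReal.ofReal_eq_coe_nnreal p.2.1).symm
  have c2 : ((unitInterval.toNNReal (unitInterval.symm p) : NNReal) : ℝ≥0∞) =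
      ENNReal.ofReal (1 - p) := by
    rw [← unitInterval.coe_symm_eq]
    exact (ENNReal.ofReal_eq_coe_nnreal (unitInterval.symm p).2.1).symm
  simp only [ENNReal.smul_def, smul_eq_mul, c1, c2, h1, h2]

end Split

end P151
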