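import Mathlib

/-!
# P151: Faber-Krahn inequality from the decay of return probabilities
-/

namespace P151

open SimpleGraph Matrix
open scoped Classical

variable {V : Type*} (G : SimpleGraph V) [G.LocallyFinite]

lemma card_walk_succ (n : ℕ) (x y : V) :
    (G.finsetWalkLength (n + 1) x y).card =
      ∑ b ∈ G.neighborFinset x, (G.finsetWalkLength n b y).card := by
  simp only [SimpleGraph.finsetWalkLength]
  rw [Finset.card_biUnion]
  · simp only [Finset.card_map]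
    exact Finset.sum_bij (fun b _ => (b : V)) (fun b _ => (G.mem_neighborFinset x b).2 b.2)
      (fun _ _ _ _ e => Subtype.ext e)
      (fun b hb => ⟨⟨b, (G.mem_neighborFinset x b).1 hb⟩, Finset.mem_univ _, rfl⟩) (fun _ _ => rfl)
  · rintro ⟨b, hb⟩ - ⟨b', hb'⟩ - hne
    rw [Function.onFun, Finset.disjoint_left]
    intro w hw hw'
    obtain ⟨u, -, rfl⟩ := Finset.mem_map.1 hw
    obtain ⟨u', -, e⟩ := Finset.mem_map.1 hw'
    change SimpleGraph.Walk.cons _ u' = SimpleGraph.Walk.cons _ u at e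
    have h2 := congrArg (fun w => SimpleGraph.Walk.getVert w 1) e
    change u'.getVert 0 = u.getVert 0 at h2
    rw [SimpleGraph.Walk.getVert_zero, SimpleGraph.Walk.getVert_zero] at h2
    have h1 : b' = b := h2
    exact hne (Subtype.ext h1.symm)

/-- Adjacency inside `A`. -/
noncomputable def adjIn (A : Finset V) : Matrix A A ℝ :=
  Matrix.of fun a b => if G.Adj a b then 1 else 0

lemma adjIn_pow_le (A : Finset V) : ∀ (n : ℕ) (a b : A),
    0 ≤ (adjIn G A ^ n) a b ∧ (adjIn G A ^ n) a b ≤ (G.finsetWalkLength n (a : V) b).card := by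
  intro n
  induction n with
  | zero =>
    intro a b
    by_cases h : a = b
    · subst h
      simp [SimpleGraph.finsetWalkLength]
    · simp [h, SimpleGraph.finsetWalkLength]
  | succ n ih =>
    intro a b
    rw [pow_succ', Matrix.mul_apply]
    refine ⟨Finset.sum_nonneg fun c _ => mul_nonneg ?_ (ih c b).1, ?_⟩
    · simp only [adjIn, Matrix.of_apply]; split_ifs <;> norm_num
    rw [card_walk_succ, Nat.cast_sum]
    calc ∑ c : A, adjIn G A a c * (adjIn G A ^ n) c b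
        ≤ ∑ c : A, (if G.Adj a c then ((G.finsetWalkLength n (c : V) b).card : ℝ) else 0) :=
          Finset.sum_le_sum fun c _ => by
            simp only [adjIn, Matrix.of_apply]
            split_ifs with h
            · rw [one_mul]; exact (ih c b).2
            · rw [zero_mul]
      _ = ∑ v ∈ A.filter (fun v => G.Adj a v), ((G.finsetWalkLength n v b).card : ℝ) := by
          rw [Finset.sum_filter, ← Finset.sum_coe_sort A
            (fun v => if G.Adj a v then ((G.finsetWalkLength n v b).card : ℝ) else 0)]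
      _ ≤ _ := Finset.sum_le_sum_of_subset_of_nonneg (fun v hv =>
          (G.mem_neighborFinset _ _).2 (Finset.mem_filter.1 hv).2) fun v _ _ => Nat.cast_nonneg _

omit [G.LocallyFinite] in
lemma adjIn_symm (A : Finset V) (n : ℕ) (a b : A) :
    (adjIn G A ^ n) a b = (adjIn G A ^ n) b a := by
  have h : (adjIn G A).transpose = adjIn G A := by
    ext a b
    simp [adjIn, G.adj_comm]
  conv_rhs => rw [← h, ← Matrix.transpose_pow, Matrix.transpose_apply]

/-- The quadratic forms of the powers. -/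
noncomputable def qf (A : Finset V) (g : V → ℝ) (k : ℕ) : ℝ :=
  (fun v : A => g v) ⬝ᵥ (adjIn G A ^ k *ᵥ fun v : A => g v)

omit [G.LocallyFinite] in
lemma qf_zero (A : Finset V) (g : V → ℝ) : qf G A g 0 = ∑ v ∈ A, g v ^ 2 := by
  simp only [qf, pow_zero, Matrix.one_mulVec, dotProduct]
  rw [← Finset.sum_coe_sort A (fun v => g v ^ 2)]
  exact Finset.sum_congr rfl fun v _ => (sq _).symm

omit [G.LocallyFinite] in
lemma qf_one (A : Finset V) (g : V → ℝ) :
    qf G A g 1 = ∑ y ∈ A, ∑ x ∈ A, (if G.Adj y x then g y * g x else 0) := by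
  simp only [qf, pow_one, dotProduct, Matrix.mulVec, adjIn, Matrix.of_apply, Finset.mul_sum]
  rw [← Finset.sum_coe_sort A (fun y => ∑ x ∈ A, (if G.Adj y x then g y * g x else 0))]
  refine Finset.sum_congr rfl fun y _ => ?_
  rw [← Finset.sum_coe_sort A (fun x => if G.Adj y x then g y * g x else 0)]
  exact Finset.sum_congr rfl fun x _ => by split_ifs <;> ring

lemma dirichlet {d : ℕ} (hd : ∀ x, (G.neighborFinset x).card = d) (A B : Finset V) (g : V → ℝ)
    (hAB : A ⊆ B) (hN : ∀ a ∈ A, G.neighborFinset a ⊆ B) (hg : ∀ v, v ∉ A → g v = 0) :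
    ∑ x ∈ B, ∑ y ∈ G.neighborFinset x, (g x - g y) ^ 2 =
      2 * d * qf G A g 0 - 2 * qf G A g 1 := by
  have swap : ∀ f : V → V → ℝ, (∀ x y, y ∉ A → f x y = 0) →
      ∑ x ∈ B, ∑ y ∈ G.neighborFinset x, f x y = ∑ y ∈ A, ∑ x ∈ G.neighborFinset y, f x y := by
    intro f hf
    have h1 : ∀ x ∈ B, ∑ y ∈ G.neighborFinset x, f x y =
        ∑ y ∈ (G.neighborFinset x).filter (fun y => y ∈ A), f x y := fun x _ =>
      (Finset.sum_filter_of_ne fun y _ hy => by
        by_contra hA; exact hy (hf x y hA)).symm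
    rw [Finset.sum_congr rfl h1]
    refine Finset.sum_comm' fun x y => ?_
    simp only [Finset.mem_filter, SimpleGraph.mem_neighborFinset]
    exact ⟨fun h => ⟨h.2.1.symm, h.2.2⟩,
      fun h => ⟨hN y h.2 ((G.mem_neighborFinset _ _).2 h.1), h.1.symm, h.2⟩⟩
  have e1 : ∑ x ∈ B, ∑ _y ∈ G.neighborFinset x, g x ^ 2 = d * qf G A g 0 := by
    simp only [Finset.sum_const, hd, nsmul_eq_mul, ← Finset.mul_sum, qf_zero]
    congr 1
    exact (Finset.sum_subset hAB fun v _ hv => by rw [hg v hv]; ring).symm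
  have e2 : ∑ x ∈ B, ∑ y ∈ G.neighborFinset x, g y ^ 2 = d * qf G A g 0 := by
    rw [swap _ fun x y hy => by rw [hg y hy]; ring]
    simp only [Finset.sum_const, hd, nsmul_eq_mul, ← Finset.mul_sum, qf_zero]
  have e3 : ∑ x ∈ B, ∑ y ∈ G.neighborFinset x, g x * g y = qf G A g 1 := by
    rw [swap _ fun x y hy => by rw [hg y hy]; ring, qf_one]
    refine Finset.sum_congr rfl fun y _ => ?_
    calc ∑ x ∈ G.neighborFinset y, g x * g y
        = ∑ x ∈ (G.neighborFinset y).filter (fun x => x ∈ A), g x * g y :=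
          (Finset.sum_filter_of_ne fun x _ hx => by
            by_contra hxA; exact hx (by rw [hg x hxA, zero_mul])).symm
      _ = ∑ x ∈ A.filter (fun x => G.Adj y x), g x * g y := Finset.sum_congr (by
          ext x; simp [and_comm]) fun _ _ => rfl
      _ = _ := by
          rw [Finset.sum_filter]
          exact Finset.sum_congr rfl fun x _ => by split_ifs <;> ring
  calc ∑ x ∈ B, ∑ y ∈ G.neighborFinset x, (g x - g y) ^ 2
      = ∑ x ∈ B, ∑ y ∈ G.neighborFinset x, (g x ^ 2 + g y ^ 2 - 2 * (g x * g y)) :=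
        Finset.sum_congr rfl fun x _ => Finset.sum_congr rfl fun y _ => by ring
    _ = ∑ x ∈ B, ∑ _y ∈ G.neighborFinset x, g x ^ 2 + ∑ x ∈ B, ∑ y ∈ G.neighborFinset x, g y ^ 2 -
          2 * ∑ x ∈ B, ∑ y ∈ G.neighborFinset x, g x * g y := by
        simp only [Finset.sum_sub_distrib, Finset.sum_add_distrib, Finset.mul_sum]
    _ = _ := by rw [e1, e2, e3]; ring

omit [G.LocallyFinite] in
lemma qf_cs (A : Finset V) (g : V → ℝ) (k : ℕ) :
    qf G A g k ^ 2 ≤ qf G A g 0 * qf G A g (2 * k) := by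
  set gv : A → ℝ := fun v => g v
  have hsym : ∀ (u w : A → ℝ),
      u ⬝ᵥ (adjIn G A ^ k *ᵥ w) = (adjIn G A ^ k *ᵥ u) ⬝ᵥ w := by
    intro u w
    rw [Matrix.dotProduct_mulVec]
    congr 1
    funext j
    simp only [Matrix.vecMul, Matrix.mulVec, dotProduct]
    exact Finset.sum_congr rfl fun i _ => by rw [adjIn_symm G A k i j, mul_comm]
  have e : qf G A g (2 * k) = (adjIn G A ^ k *ᵥ gv) ⬝ᵥ (adjIn G A ^ k *ᵥ gv) := by
    simp only [qf, two_mul, pow_add, ← Matrix.mulVec_mulVec, hsym, gv]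
  rw [e]
  simp only [qf, pow_zero, Matrix.one_mulVec, dotProduct, ← sq, gv]
  exact Finset.sum_mul_sq_le_sq_mul_sq _ _ _

lemma qf_upper (A : Finset V) (g : V → ℝ) (t : ℕ) {K : ℝ} (hK : 0 ≤ K)
    (hret : ∀ x : V, ((G.finsetWalkLength (2 * t) x x).card : ℝ) ≤ K) :
    qf G A g (2 * t) ≤ (A.card : ℝ) * qf G A g 0 * K := by
  set gv : A → ℝ := fun v => g v
  set M := adjIn G A
  have hent : ∀ u w : A, (M ^ (2 * t)) u w ≤ K := by
    intro u w
    have hdiag : ∀ v : A, (M ^ (2 * t)) v v ≤ K := fun v =>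
      (adjIn_pow_le G A _ v v).2.trans (hret v)
    have hmul : ∀ u w : A, (M ^ (2 * t)) u w = ∑ v, (M ^ t) u v * (M ^ t) w v := fun u w => by
      rw [two_mul, pow_add, Matrix.mul_apply]
      exact Finset.sum_congr rfl fun v _ => by rw [adjIn_symm G A t v w]
    have h1 : 2 * (M ^ (2 * t)) u w ≤ (M ^ (2 * t)) u u + (M ^ (2 * t)) w w := by
      rw [hmul, hmul, hmul, Finset.mul_sum, ← Finset.sum_add_distrib]
      exact Finset.sum_le_sum fun v _ => by nlinarith [sq_nonneg ((M ^ t) u v - (M ^ t) w v)]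
    linarith [hdiag u, hdiag w]
  calc qf G A g (2 * t) ≤ ∑ u : A, ∑ w : A, K * (|gv u| * |gv w|) := by
        simp only [qf, dotProduct, Matrix.mulVec, Finset.mul_sum]
        refine Finset.sum_le_sum fun u _ => Finset.sum_le_sum fun w _ => ?_
        calc gv u * ((M ^ (2 * t)) u w * gv w) ≤ |gv u * ((M ^ (2 * t)) u w * gv w)| := le_abs_self _
          _ = (M ^ (2 * t)) u w * (|gv u| * |gv w|) := by
              rw [abs_mul, abs_mul, abs_of_nonneg (adjIn_pow_le G A _ u w).1]; ring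
          _ ≤ _ := mul_le_mul_of_nonneg_right (hent u w) (by positivity)
    _ = K * (∑ u : A, |gv u|) ^ 2 := by rw [sq, Finset.sum_mul_sum]; simp [Finset.mul_sum]
    _ ≤ K * ((A.card : ℝ) * qf G A g 0) := by
        refine mul_le_mul_of_nonneg_left ?_ hK
        have := sq_sum_le_card_mul_sum_sq (s := (Finset.univ : Finset A)) (f := fun u => |gv u|)
        simp only [Finset.card_univ, Fintype.card_coe, sq_abs] at this
        refine this.trans (le_of_eq ?_)
        rw [qf_zero, ← Finset.sum_coe_sort A (fun v => g v ^ 2)]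
    _ = _ := by ring

lemma qf_iter (A : Finset V) (g : V → ℝ) (h0 : 0 < qf G A g 0) : ∀ i : ℕ,
    qf G A g 0 * (max (qf G A g 1) 0 / qf G A g 0) ^ (2 ^ (i + 1)) ≤ qf G A g (2 ^ (i + 1)) := by
  intro i
  induction i with
  | zero =>
    have h2 := qf_cs G A g 1
    norm_num at h2 ⊢
    rw [div_pow, ← mul_div_assoc, div_le_iff₀ (pow_pos h0 2)]
    have hm : max (qf G A g 1) 0 ^ 2 ≤ qf G A g 1 ^ 2 := by
      rcases le_total (qf G A g 1) 0 with h | h
      · rw [max_eq_right h, zero_pow two_ne_zero]; exact sq_nonneg _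
      · rw [max_eq_left h]
    nlinarith
  | succ i ih =>
    have h2 := qf_cs G A g (2 ^ (i + 1))
    rw [← pow_succ'] at h2
    have h3 := (pow_le_pow_left₀ (mul_nonneg h0.le (by positivity)) ih 2).trans h2
    rw [mul_pow, ← pow_mul, ← pow_succ, sq (qf G A g 0), mul_assoc] at h3
    exact le_of_mul_le_mul_left h3 h0

/-- Choosing the time. -/
lemma time_choice {c γ : ℝ} (hc : 0 < c) (hγ : 0 < γ) {ℓ : ℝ} (hℓ : 1 ≤ ℓ) :
    ∃ i : ℕ, ℓ * 2 ≤ c * ((2 : ℝ) ^ i) ^ γ ∧
      (2 : ℝ) ^ i ≤ (2 * (2 / c) ^ (1 / γ) + 1) * ℓ ^ (1 / γ) := by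
  set T0 : ℝ := (2 * ℓ / c) ^ (1 / γ) with hT0
  have hT00 : 0 ≤ T0 := by positivity
  have hex : ∃ i : ℕ, T0 ≤ (2 : ℝ) ^ i :=
    (pow_unbounded_of_one_lt T0 one_lt_two).imp fun i h => h.le
  refine ⟨Nat.find hex, ?_, ?_⟩
  · have h := Real.rpow_le_rpow hT00 (Nat.find_spec hex) hγ.le
    have e : T0 ^ γ = 2 * ℓ / c := by
      rw [hT0, ← Real.rpow_mul (by positivity), one_div_mul_cancel hγ.ne', Real.rpow_one]
    have h := (e.symm.trans_le h : 2 * ℓ / c ≤ _)
    rw [div_le_iff₀ hc] at h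
    linarith
  · have hi2 : (2 : ℝ) ^ Nat.find hex ≤ 2 * T0 + 1 := by
      rcases Nat.eq_zero_or_pos (Nat.find hex) with h | h
      · rw [h, pow_zero]; linarith
      · obtain ⟨j, hj⟩ : ∃ j, Nat.find hex = j + 1 := ⟨Nat.find hex - 1, by omega⟩
        have : ¬ T0 ≤ (2 : ℝ) ^ j := Nat.find_min hex (by omega)
        rw [hj, pow_succ]
        linarith
    refine hi2.trans ?_
    simp only [hT0]
    rw [show 2 * ℓ / c = 2 / c * ℓ by ring, Real.mul_rpow (by positivity) (by positivity)]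
    have : 1 ≤ ℓ ^ (1 / γ) := Real.one_le_rpow hℓ (by positivity)
    linarith

/-- The spectral consequence at the chosen time. -/
lemma exp_choice {s ℓ a K : ℝ} (hs : 0 ≤ s) (hℓ : 1 ≤ ℓ) (hK : 0 < K) {t : ℕ} (ht : 0 < t)
    (hpow : s ^ (2 * t) ≤ Real.exp (-ℓ)) (htb : (t : ℝ) ≤ K * ℓ ^ (1 + a)) (ha : 0 ≤ a) :
    s ≤ 1 - ℓ ^ (-a) / (2 * K + 1) := by
  have hℓ0 : 0 < ℓ := by linarith
  set y : ℝ := ℓ ^ (-a) / (2 * K) with hy
  have hy0 : 0 < y := by positivity
  have hy1 : y * (2 * t) ≤ ℓ := by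
    calc y * (2 * t) ≤ y * (2 * (K * ℓ ^ (1 + a))) := by gcongr
      _ = ℓ ^ (-a) * ℓ ^ (1 + a) := by rw [hy]; field_simp
      _ = ℓ := by rw [← Real.rpow_add hℓ0]; norm_num
  have h1 : s ^ (2 * t) ≤ Real.exp (-y) ^ (2 * t) := by
    rw [← Real.exp_nat_mul]
    refine hpow.trans (Real.exp_le_exp.2 ?_)
    push_cast
    linarith
  have h2 : s ≤ 1 / (1 + y) := by
    refine ((pow_le_pow_iff_left₀ hs (Real.exp_pos _).le (by omega)).1 h1).trans ?_
    rw [Real.exp_neg, one_div]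
    exact inv_anti₀ (by positivity) (by linarith [Real.add_one_le_exp y])
  refine h2.trans ?_
  have hle : ℓ ^ (-a) ≤ 1 := Real.rpow_le_one_of_one_le_of_nonpos hℓ (neg_nonpos.2 ha)
  have hz : 0 < ℓ ^ (-a) := Real.rpow_pos_of_pos hℓ0 _
  have e : ℓ ^ (-a) = y * (2 * K) := by rw [hy]; field_simp
  rw [e] at hle ⊢
  rw [div_le_iff₀ (by positivity), sub_mul, one_mul, div_mul_eq_mul_div, le_sub_iff_add_le,
    ← le_sub_iff_add_le', div_le_iff₀ (by positivity)]
  nlinarith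

variable {G}

/-- Faber-Krahn from the decay of return counts. -/
lemma faber_krahn {d : ℕ} (hd0 : 0 < d) (hd : ∀ x, (G.neighborFinset x).card = d)
    {C c γ : ℝ} (hc : 0 < c) (hγ : 0 < γ) (hγ1 : γ ≤ 1)
    (hret : ∀ (x : V) (n : ℕ), ((G.finsetWalkLength (2 * n) x x).card : ℝ) ≤
      C * (d : ℝ) ^ (2 * n) * Real.exp (-c * (n : ℝ) ^ γ)) :
    ∃ κ : ℝ, 0 < κ ∧ ∀ (L : ℕ) (A B : Finset V) (g : V → ℝ), A.card ≤ 2 ^ L → A ⊆ B →
      (∀ a ∈ A, G.neighborFinset a ⊆ B) → (∀ v, v ∉ A → g v = 0) →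
      κ * ((L : ℝ) + 1) ^ (-((1 - γ) / γ)) * ∑ a ∈ A, g a ^ 2 ≤
        ∑ x ∈ B, ∑ y ∈ G.neighborFinset x, (g x - g y) ^ 2 := by
  set a := (1 - γ) / γ with ha
  have ha0 : 0 ≤ a := div_nonneg (sub_nonneg.2 hγ1) hγ.le
  set K1 : ℝ := 1 + Real.log (max C 1) with hK1
  have hlog : 0 ≤ Real.log (max C 1) := Real.log_nonneg (le_max_right _ _)
  set K2 : ℝ := 2 * (2 / c) ^ (1 / γ) + 1 with hK2
  have hK20 : 0 < K2 := by positivity
  have hd' : (0 : ℝ) < d := Nat.cast_pos.2 hd0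
  refine ⟨2 * d * K1 ^ (-a) / (2 * K2 + 1), by positivity, fun L A B g hA hAB hN hg => ?_⟩
  rw [dirichlet G hd A B g hAB hN hg, ← qf_zero G A g]
  set q0 := qf G A g 0 with hq0
  have hq0n : 0 ≤ q0 := by rw [hq0, qf_zero]; exact Finset.sum_nonneg fun v _ => sq_nonneg _
  rcases hq0n.eq_or_lt with h0 | h0
  · have hA0 : qf G A g 1 ≤ 0 := by
      have := qf_cs G A g 1
      rw [← hq0, ← h0, zero_mul] at this
      nlinarith
    rw [← h0]; linarith
  set ℓ : ℝ := K1 * ((L : ℝ) + 1) with hℓ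
  have hL0 : (0 : ℝ) ≤ L := Nat.cast_nonneg L
  have hℓ1 : 1 ≤ ℓ := one_le_mul_of_one_le_of_one_le (by linarith) (by linarith)
  obtain ⟨i, hi1, hi2⟩ := time_choice hc hγ hℓ1
  set σ : ℝ := max (qf G A g 1) 0 / q0 with hσ
  have hσ0 : 0 ≤ σ := by positivity
  set t : ℕ := 2 ^ i with ht
  have htR : (t : ℝ) = (2 : ℝ) ^ i := by simp [ht]
  rw [← htR] at hi1 hi2
  set Kt : ℝ := max C 1 * (d : ℝ) ^ (2 * t) * Real.exp (-c * (t : ℝ) ^ γ) with hKt
  have hKt0 : 0 ≤ Kt := by positivity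
  have h := qf_iter G A g h0 i
  rw [show (2 : ℕ) ^ (i + 1) = 2 * t by rw [ht, pow_succ'], ← hσ] at h
  have hup := qf_upper G A g t hKt0 fun x => (hret x t).trans (by
    rw [hKt]; gcongr; exact le_max_left _ _)
  have h' : σ ^ (2 * t) ≤ (A.card : ℝ) * Kt :=
    le_of_mul_le_mul_left ((h.trans hup).trans (le_of_eq (by ring))) h0
  have hA' : (A.card : ℝ) * max C 1 ≤ Real.exp ℓ := by
    have h2 : (A.card : ℝ) ≤ Real.exp L := by
      calc (A.card : ℝ) ≤ (2 : ℝ) ^ L := by exact_mod_cast hA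
        _ ≤ Real.exp 1 ^ L := by
            gcongr
            linarith [Real.add_one_le_exp (1 : ℝ)]
        _ = Real.exp L := by rw [← Real.exp_nat_mul, mul_one]
    calc (A.card : ℝ) * max C 1 ≤ Real.exp L * Real.exp (Real.log (max C 1)) := by
          rw [Real.exp_log (lt_max_of_lt_right one_pos)]
          gcongr
      _ ≤ Real.exp ℓ := by
          rw [← Real.exp_add]
          refine Real.exp_le_exp.2 ?_
          rw [hℓ, hK1]
          linarith [mul_nonneg hlog hL0]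
  have hpow : (σ / d) ^ (2 * t) ≤ Real.exp (-ℓ) := by
    rw [div_pow, div_le_iff₀ (pow_pos hd' _)]
    refine h'.trans ?_
    rw [hKt]
    calc (A.card : ℝ) * (max C 1 * (d : ℝ) ^ (2 * t) * Real.exp (-c * (t : ℝ) ^ γ))
        = (A.card : ℝ) * max C 1 * Real.exp (-c * (t : ℝ) ^ γ) * (d : ℝ) ^ (2 * t) := by ring
      _ ≤ Real.exp ℓ * Real.exp (-(ℓ * 2)) * (d : ℝ) ^ (2 * t) := by
          refine mul_le_mul_of_nonneg_right (mul_le_mul hA' (Real.exp_le_exp.2 (by linarith))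
            (Real.exp_pos _).le (Real.exp_pos _).le) (pow_nonneg hd'.le _)
      _ = _ := by rw [← Real.exp_add]; ring_nf
  have e1a : 1 + a = 1 / γ := by rw [ha]; field_simp; ring
  have hs := exp_choice (a := a) (K := K2) (t := t) (div_nonneg hσ0 hd'.le) hℓ1 hK20 (by positivity)
    hpow (by rw [e1a]; exact hi2) ha0
  rw [div_le_iff₀ hd'] at hs
  have hq1 : qf G A g 1 ≤ q0 * σ := by
    rw [hσ, mul_div_cancel₀ _ h0.ne']; exact le_max_left _ _
  have h3 := mul_le_mul_of_nonneg_left hs h0.le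
  have e : ℓ ^ (-a) = K1 ^ (-a) * ((L : ℝ) + 1) ^ (-a) :=
    Real.mul_rpow (by linarith) (by linarith)
  rw [e] at h3
  have hgoal : 2 * (d : ℝ) * K1 ^ (-a) / (2 * K2 + 1) * ((L : ℝ) + 1) ^ (-a) * q0 =
      2 * (q0 * ((K1 ^ (-a) * ((L : ℝ) + 1) ^ (-a)) / (2 * K2 + 1) * d)) := by ring
  rw [hgoal]
  linarith

end P151
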