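import Vale.Agent.P151.Basic

/-!
# P151: the two-ghost inequality with capped linear weights, and joining along paths
-/

namespace P151

open MeasureTheory ProbabilityTheory SimpleGraph P165
open scoped ENNReal Classical

variable {V : Type*} {G : SimpleGraph V}

/-- At least `n` vertices. -/
def Big (n : ℕ) : Option (Finset V) → Prop
  | none => True
  | some S => n ≤ S.card

/-- Two distinct clusters of size at least `n`, one of them finite. -/
def D (G : SimpleGraph V) (n : ℕ) (x y : V) : Set (Set (Sym2 V)) :=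
  {ω | ¬ (openGraph G ω).Reachable x y ∧ Big n (kc G x ω) ∧ Big n (kc G y ω) ∧
    (kc G x ω ≠ none ∨ kc G y ω ≠ none)}

/-- The capped weight of a cluster. -/
noncomputable def wN (n : ℕ) : Option (Finset V) → ℝ
  | none => 0
  | some S => min ((S.card : ℝ) / n) 1

lemma wN_nonneg (n : ℕ) (K : Option (Finset V)) : 0 ≤ wN n K := by
  cases K with
  | none => simp [wN]
  | some S => exact le_min (by positivity) zero_le_one

lemma wN_le_one (n : ℕ) (K : Option (Finset V)) : wN n K ≤ 1 := by
  cases K with
  | none => simp [wN]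
  | some S => exact min_le_right _ _

lemma wN_eq_one {n : ℕ} (hn : 0 < n) {K : Option (Finset V)} (hK : Big n K) (hK' : K ≠ none) :
    wN n K = 1 := by
  cases K with
  | none => exact absurd rfl hK'
  | some S =>
    refine min_eq_right ?_
    rw [le_div_iff₀ (by exact_mod_cast hn), one_mul]
    exact_mod_cast (show n ≤ S.card from hK)

/-- The centred status of an edge. -/
noncomputable def cE (p : ℝ) (e : Sym2 V) (ω : Set (Sym2 V)) : ℝ :=
  if e ∈ ω then -(1 - p) else p

lemma abs_cE {p : ℝ} (h0 : 0 ≤ p) (h1 : p ≤ 1) (e : Sym2 V) (ω : Set (Sym2 V)) :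
    |cE p e ω| ≤ 1 := by
  unfold cE
  split_ifs <;> rw [abs_le] <;> constructor <;> linarith

lemma measurable_cE (p : ℝ) (e : Sym2 V) : Measurable (cE p e) :=
  Measurable.ite (measurableSet_edge e) measurable_const measurable_const

/-- The share of the edge `ab` at the end `a`. -/
noncomputable def dart (G : SimpleGraph V) (p : ℝ) (a b : V) (ω : Set (Sym2 V)) : ℝ :=
  if G.Adj a b then
    (if (openGraph G ω).Reachable a b then (1 / 2 : ℝ) else 1) * cE p s(a, b) ω else 0

lemma abs_dart {p : ℝ} (h0 : 0 ≤ p) (h1 : p ≤ 1) (a b : V) (ω : Set (Sym2 V)) :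
    |dart G p a b ω| ≤ 1 := by
  unfold dart
  split_ifs with h h'
  · rw [abs_mul]; exact mul_le_one₀ (by norm_num) (abs_nonneg _) (abs_cE h0 h1 _ _)
  · rw [one_mul]; exact abs_cE h0 h1 _ _
  · simp

section Incident

variable [G.LocallyFinite]

/-- The edges touching `S`. -/
noncomputable def inc (G : SimpleGraph V) [G.LocallyFinite] (S : Finset V) : Finset (Sym2 V) :=
  S.biUnion fun a => (G.neighborFinset a).image fun b => s(a, b)

lemma mem_inc {S : Finset V} {e : Sym2 V} :
    e ∈ inc G S ↔ ∃ a ∈ S, ∃ b, G.Adj a b ∧ s(a, b) = e := by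
  simp [inc, and_assoc]

lemma inc_mono {S T : Finset V} (h : S ⊆ T) : inc G S ⊆ inc G T :=
  Finset.biUnion_subset_biUnion_of_subset_left _ h

lemma inc_card {d : ℕ} (hd : ∀ x, (G.neighborFinset x).card ≤ d) (S : Finset V) :
    (inc G S).card ≤ d * S.card := by
  refine Finset.card_biUnion_le.trans ?_
  simpa [mul_comm] using Finset.sum_le_card_nsmul S _ d
    fun a _ => Finset.card_image_le.trans (hd a)

/-- Sum of the centred statuses around `S`. -/
noncomputable def fluc (G : SimpleGraph V) [G.LocallyFinite] (p : ℝ) (S : Finset V)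
    (ω : Set (Sym2 V)) : ℝ :=
  ∑ e ∈ inc G S, cE p e ω

lemma sum_dart {p : ℝ} {x : V} {S : Finset V} {ω : Set (Sym2 V)} (hS : kc G x ω = some S) :
    ∑ a ∈ S, ∑ b ∈ G.neighborFinset a, dart G p a b ω = fluc G p S ω := by
  set wg : Sym2 V → ℝ := fun e => if ∀ v ∈ e, v ∈ S then 1 / 2 else 1 with hwg
  have key : ∀ e ∈ inc G S, ∑ a ∈ S, (if a ∈ e then wg e else 0) = 1 := by
    intro e he
    obtain ⟨a, ha, b, hab, rfl⟩ := mem_inc.1 he
    rw [← Finset.sum_filter]
    by_cases hb : b ∈ S
    · rw [show (S.filter fun v => v ∈ s(a, b)) = {a, b} by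
        ext v
        simp only [Finset.mem_filter, Sym2.mem_iff, Finset.mem_insert, Finset.mem_singleton]
        exact ⟨fun h => h.2, fun h => ⟨by rcases h with rfl | rfl <;> assumption, h⟩⟩,
        Finset.sum_pair hab.ne]
      simp [hwg, ha, hb]
      norm_num
    · rw [show (S.filter fun v => v ∈ s(a, b)) = {a} by
        ext v
        simp only [Finset.mem_filter, Sym2.mem_iff, Finset.mem_singleton]
        exact ⟨fun h => h.2.resolve_right (fun e => hb (e ▸ h.1)), fun h => ⟨h ▸ ha, Or.inl h⟩⟩,
        Finset.sum_singleton]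
      simp [hwg, ha, hb]
  calc ∑ a ∈ S, ∑ b ∈ G.neighborFinset a, dart G p a b ω
      = ∑ a ∈ S, ∑ e ∈ inc G S, (if a ∈ e then wg e else 0) * cE p e ω := by
        refine Finset.sum_congr rfl fun a ha => ?_
        rw [← Finset.sum_subset (s₁ := (G.neighborFinset a).image fun b => s(a, b))
          (f := fun e => (if a ∈ e then wg e else 0) * cE p e ω)]
        · rw [Finset.sum_image (fun b _ b' _ e => Sym2.congr_right.1 e)]
          refine Finset.sum_congr rfl fun b hb => ?_
          have hab := (G.mem_neighborFinset a b).1 hb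
          have hr : (openGraph G ω).Reachable a b ↔ b ∈ S :=
            (mem_of_kc (kc_of_mem hS ha)).symm
          simp only [dart, if_pos hab, hr, hwg, Sym2.mem_iff, true_or, if_true, forall_eq_or_imp,
            forall_eq, ha, true_and]
        · exact fun e he => Finset.mem_biUnion.2 ⟨a, ha, he⟩
        · intro e he hne
          rw [if_neg, zero_mul]
          intro hae
          obtain ⟨c, hc, b, hcb, rfl⟩ := mem_inc.1 he
          refine hne (Finset.mem_image.2 ?_)
          rcases Sym2.mem_iff.1 hae with rfl | rfl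
          · exact ⟨b, (G.mem_neighborFinset _ _).2 hcb, rfl⟩
          · exact ⟨c, (G.mem_neighborFinset _ _).2 hcb.symm, Sym2.eq_swap⟩
    _ = ∑ e ∈ inc G S, ∑ a ∈ S, (if a ∈ e then wg e else 0) * cE p e ω := Finset.sum_comm
    _ = fluc G p S ω := Finset.sum_congr rfl fun e he => by rw [← Finset.sum_mul, key e he, one_mul]

end Incident

section Average

variable {Γ : Type*} [Group Γ] [MulAction Γ V] [G.LocallyFinite] [Countable V]

/-- Averaging a bounded equivariant function over finite clusters. -/
lemma cluster_avg (h : Unimod G Γ) (hc : G.Connected) (p : unitInterval) (W : ℕ → ℝ)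
    (hW0 : ∀ k, 0 ≤ W k) (hW1 : ∀ k, W k ≤ 1) (F : V → Set (Sym2 V) → ℝ) (B : ℝ)
    (hB : ∀ x ω, |F x ω| ≤ B) (hm : ∀ x, Measurable (F x))
    (hinv : ∀ (g : Γ) x ω, F (g • x) (mv h g ω) = F x ω) (o : V) :
    ∫ ω, (kc G o ω).elim 0 (fun S => W S.card) * F o ω ∂setBer(G.edgeSet, p) =
      ∫ ω, (kc G o ω).elim 0 (fun S => W S.card / S.card * ∑ a ∈ S, F a ω)
        ∂setBer(G.edgeSet, p) := by
  set μ := setBer(G.edgeSet, p)
  have hB0 : 0 ≤ B := (abs_nonneg _).trans (hB o ∅)
  have hFB : ∀ x ω, 0 ≤ F x ω + B := fun x ω => by linarith [neg_le_of_abs_le (hB x ω)]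
  set A : Set (Sym2 V) → ℝ := fun ω => (kc G o ω).elim 0 (fun S => W S.card) with hA
  set L : Set (Sym2 V) → ℝ := fun ω => A ω * (F o ω + B) with hL
  set R : Set (Sym2 V) → ℝ := fun ω =>
    (kc G o ω).elim 0 (fun S => W S.card / S.card * ∑ a ∈ S, (F a ω + B)) with hR
  have hAm : Measurable A :=
    measurable_kc_comp (G := G) o fun K => K.elim 0 fun S => W S.card
  have hLm : Measurable L := hAm.mul ((hm o).add_const B)
  have hRm : Measurable R := by
    refine measurable_to_real_of_option (G := G) o (fun S => fun ω =>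
      W S.card / S.card * ∑ a ∈ S, (F a ω + B)) fun S => ?_
    exact (Finset.measurable_sum S fun a _ => (hm a).add_const B).const_mul _
  have hA0 : ∀ ω, 0 ≤ A ω ∧ A ω ≤ 1 := fun ω => by
    simp only [hA]
    cases kc G o ω with
    | none => simp
    | some S => exact ⟨hW0 _, hW1 _⟩
  have hL0 : ∀ ω, 0 ≤ L ω := fun ω => mul_nonneg (hA0 ω).1 (hFB o ω)
  have hR0 : ∀ ω, 0 ≤ R ω := fun ω => by
    simp only [hR]
    rcases hS : kc G o ω with _ | S
    · simp
    · exact mul_nonneg (div_nonneg (hW0 _) (Nat.cast_nonneg _))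
        (Finset.sum_nonneg fun a _ => hFB a ω)
  set f : Set (Sym2 V) → V → V → ℝ≥0∞ := fun ω x y =>
    (kc G x ω).elim 0 (fun S => if y ∈ S then ENNReal.ofReal (W S.card / S.card * (F x ω + B))
      else 0) with hf
  have hfm : ∀ x y, Measurable fun ω => f ω x y := fun x y => by
    refine measurable_to_real_of_option (G := G) x (fun S => fun ω =>
      if y ∈ S then ENNReal.ofReal (W S.card / S.card * (F x ω + B)) else 0) fun S => ?_
    split_ifs
    · exact (((hm x).add_const B).const_mul _).ennreal_ofReal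
    · exact measurable_const
  have key := transport_integral h hc p f hfm (fun g ω x y => by
    simp only [hf, kc_mv h g ω x, hinv g x ω]
    cases kc G x ω with
    | none => rfl
    | some S =>
      simp only [Option.map_some, Option.elim_some, mvS, Finset.mem_image,
        (MulAction.injective g).eq_iff, exists_eq_right,
        Finset.card_image_of_injective _ (MulAction.injective g)]) o
  have e1 : ∀ ω, ∑' y, f ω o y = ENNReal.ofReal (L ω) := fun ω => by
    simp only [hf, hL, hA]
    cases hS : kc G o ω with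
    | none => simp
    | some S =>
      simp only [Option.elim_some]
      rw [tsum_eq_sum (s := S) (fun y hy => if_neg hy), Finset.sum_congr rfl fun y hy => if_pos hy,
        Finset.sum_const, nsmul_eq_mul, ← ENNReal.ofReal_natCast,
        ← ENNReal.ofReal_mul (Nat.cast_nonneg _)]
      have : (0 : ℝ) < S.card := Nat.cast_pos.2 (Finset.card_pos.2 ⟨o, self_mem_of_kc hS⟩)
      congr 1
      field_simp
  have e2 : ∀ ω, ∑' y, f ω y o = ENNReal.ofReal (R ω) := fun ω => by
    simp only [hR]
    cases hS : kc G o ω with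
    | none =>
      simp only [Option.elim_none, ENNReal.ofReal_zero, ENNReal.tsum_eq_zero, hf]
      intro y
      cases hy : kc G y ω with
      | none => rfl
      | some T =>
        simp only [Option.elim_some]
        refine if_neg fun ho => ?_
        rw [kc_of_mem hy ho] at hS
        exact Option.some_ne_none _ hS
    | some S =>
      simp only [Option.elim_some, hf]
      rw [tsum_eq_sum (s := S)]
      · rw [Finset.mul_sum, ENNReal.ofReal_sum_of_nonneg
          (fun a _ => mul_nonneg (div_nonneg (hW0 _) (Nat.cast_nonneg _)) (hFB a ω))]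
        refine Finset.sum_congr rfl fun y hy => ?_
        rw [kc_of_mem hS hy]
        simp [self_mem_of_kc hS]
      · intro y hy
        cases hy' : kc G y ω with
        | none => rfl
        | some T =>
          simp only [Option.elim_some]
          refine if_neg fun ho => hy ?_
          have := kc_of_mem hy' ho
          rw [hS, Option.some.injEq] at this
          rw [this]
          exact self_mem_of_kc hy'
  simp only [e1, e2] at key
  have h1 : ∫ ω, L ω ∂μ = ∫ ω, R ω ∂μ := by
    rw [integral_eq_lintegral_of_nonneg_ae (ae_of_all _ hL0) hLm.aestronglyMeasurable,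
      integral_eq_lintegral_of_nonneg_ae (ae_of_all _ hR0) hRm.aestronglyMeasurable, key]
  have hb : ∀ {f : Set (Sym2 V) → ℝ} (_ : Measurable f) (C : ℝ), (∀ ω, |f ω| ≤ C) →
      Integrable f μ := fun hf C hC =>
    Integrable.mono' (integrable_const C) hf.aestronglyMeasurable (ae_of_all _ hC)
  have hsplitR : ∀ ω, R ω =
      (kc G o ω).elim 0 (fun S => W S.card / S.card * ∑ a ∈ S, F a ω) + B * A ω := fun ω => by
    simp only [hR, hA]
    cases hS : kc G o ω with
    | none => simp
    | some S =>
      simp only [Option.elim_some, Finset.sum_add_distrib, Finset.sum_const, nsmul_eq_mul]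
      have : (0 : ℝ) < S.card := Nat.cast_pos.2 (Finset.card_pos.2 ⟨o, self_mem_of_kc hS⟩)
      field_simp
  have iA : Integrable A μ := hb hAm 1 fun ω => abs_le.2 ⟨by linarith [(hA0 ω).1], (hA0 ω).2⟩
  have iL : Integrable (fun ω => A ω * F o ω) μ := hb (hAm.mul (hm o)) B fun ω => by
    rw [abs_mul]
    calc |A ω| * |F o ω| ≤ 1 * B := mul_le_mul (abs_le.2 ⟨by linarith [(hA0 ω).1], (hA0 ω).2⟩)
          (hB o ω) (abs_nonneg _) zero_le_one
      _ = B := one_mul B
  have iR : Integrable R μ := hb hRm (2 * B) fun ω => by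
    rw [abs_of_nonneg (hR0 ω)]
    simp only [hR]
    cases hS : kc G o ω with
    | none => simpa using hB0
    | some S =>
      simp only [Option.elim_some]
      have hc' : (0 : ℝ) < S.card := Nat.cast_pos.2 (Finset.card_pos.2 ⟨o, self_mem_of_kc hS⟩)
      calc W S.card / S.card * ∑ a ∈ S, (F a ω + B) ≤ 1 / S.card * (S.card * (2 * B)) := by
            refine mul_le_mul (div_le_div_of_nonneg_right (hW1 _) hc'.le) ?_
              (Finset.sum_nonneg fun a _ => hFB a ω) (by positivity)
            simpa [nsmul_eq_mul] using Finset.sum_le_card_nsmul S _ (2 * B)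
              fun a _ => by linarith [le_of_abs_le (hB a ω)]
        _ = 2 * B := by field_simp
  have hLe : ∫ ω, L ω ∂μ = ∫ ω, A ω * F o ω ∂μ + B * ∫ ω, A ω ∂μ := by
    rw [← integral_const_mul, ← integral_add iL (iA.const_mul B)]
    exact integral_congr_ae (ae_of_all _ fun ω => by simp [hL]; ring)
  have hRe : ∫ ω, (kc G o ω).elim 0 (fun S => W S.card / S.card * ∑ a ∈ S, F a ω) ∂μ =
      ∫ ω, R ω ∂μ - B * ∫ ω, A ω ∂μ := by
    rw [← integral_const_mul, ← integral_sub iR (iA.const_mul B)]
    exact integral_congr_ae (ae_of_all _ fun ω => by simp only [hsplitR]; ring)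
  rw [hRe, ← h1, hLe]
  ring

/-- Averaging over neighbours in both directions. -/
lemma swap_avg (h : Unimod G Γ) (hc : G.Connected) (p : unitInterval)
    (F : V → V → Set (Sym2 V) → ℝ) (B : ℝ) (hB : ∀ x y ω, |F x y ω| ≤ B)
    (hm : ∀ x y, Measurable (F x y))
    (hinv : ∀ (g : Γ) x y ω, F (g • x) (g • y) (mv h g ω) = F x y ω) (o : V) :
    ∑ b ∈ G.neighborFinset o, ∫ ω, F o b ω ∂setBer(G.edgeSet, p) =
      ∑ b ∈ G.neighborFinset o, ∫ ω, F b o ω ∂setBer(G.edgeSet, p) := by
  set μ := setBer(G.edgeSet, p)
  have hF0 : ∀ x y ω, 0 ≤ F x y ω + B := fun x y ω => by linarith [neg_le_of_abs_le (hB x y ω)]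
  have key := mass_transport h hc
    (fun x y => if G.Adj x y then ∫⁻ ω, ENNReal.ofReal (F x y ω + B) ∂μ else 0) (fun g x y => by
      simp only [h.adj g x y]
      congr 1
      simp only [μ]
      conv_lhs => rw [← map_mv h g p, lintegral_map ((hm _ _).add_const B).ennreal_ofReal
        (measurable_mv h g)]
      simp only [hinv]) o
  rw [tsum_eq_sum (s := G.neighborFinset o) (fun y hy => if_neg fun a =>
      hy ((G.mem_neighborFinset o y).2 a)),
    tsum_eq_sum (s := G.neighborFinset o) (fun y hy => if_neg fun a =>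
      hy ((G.mem_neighborFinset o y).2 a.symm)),
    Finset.sum_congr rfl fun b hb => if_pos ((G.mem_neighborFinset o b).1 hb),
    Finset.sum_congr rfl fun b hb => if_pos ((G.mem_neighborFinset o b).1 hb).symm] at key
  have hi : ∀ x y, Integrable (fun ω => F x y ω + B) μ := fun x y =>
    Integrable.mono' (integrable_const (2 * B)) ((hm x y).add_const B).aestronglyMeasurable
      (ae_of_all _ fun ω => by
        rw [Real.norm_eq_abs, abs_of_nonneg (hF0 x y ω)]; linarith [le_of_abs_le (hB x y ω)])
  have hi' : ∀ x y, Integrable (F x y) μ := fun x y =>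
    Integrable.mono' (integrable_const B) (hm x y).aestronglyMeasurable (ae_of_all _ fun ω => hB x y ω)
  have e : ∀ x y, ENNReal.ofReal (∫ ω, (F x y ω + B) ∂μ) =
      ∫⁻ ω, ENNReal.ofReal (F x y ω + B) ∂μ := fun x y =>
    ofReal_integral_eq_lintegral_ofReal (hi x y) (ae_of_all _ (hF0 x y))
  simp only [← e] at key
  rw [← ENNReal.ofReal_sum_of_nonneg fun b _ => integral_nonneg (hF0 o b),
    ← ENNReal.ofReal_sum_of_nonneg fun b _ => integral_nonneg (hF0 b o),
    ENNReal.ofReal_eq_ofReal_iff (Finset.sum_nonneg fun b _ => integral_nonneg (hF0 o b))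
      (Finset.sum_nonneg fun b _ => integral_nonneg (hF0 b o))] at key
  simp only [integral_add (hi' _ _) (integrable_const B), Finset.sum_add_distrib] at key
  linarith

end Average

end P151
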