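import Vale.Agent.P151.TwoGhost
import Vale.Agent.P151.FaberKrahn

/-!
# P151: no percolation at criticality when return probabilities decay fast enough
-/

namespace P151

open MeasureTheory ProbabilityTheory SimpleGraph P165 Filter Topology
open scoped ENNReal Classical

variable {V : Type*} {G : SimpleGraph V} [G.LocallyFinite]

/-- Neighbourhoods of small sets grow. -/
lemma fat_growth {d : ℕ} (hd : ∀ x, (G.neighborFinset x).card = d) {κ a : ℝ}
    (hfk : ∀ (L : ℕ) (A B : Finset V) (g : V → ℝ), A.card ≤ 2 ^ L → A ⊆ B →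
      (∀ v ∈ A, G.neighborFinset v ⊆ B) → (∀ v, v ∉ A → g v = 0) →
      κ * ((L : ℝ) + 1) ^ (-a) * ∑ v ∈ A, g v ^ 2 ≤
        ∑ x ∈ B, ∑ y ∈ G.neighborFinset x, (g x - g y) ^ 2)
    (hκ : 0 ≤ κ) (S : Finset V) (R L : ℕ) (hL : (fat G S R).card ≤ 2 ^ L) :
    κ * ((L : ℝ) + 1) ^ (-a) * (R : ℝ) ^ 2 * S.card ≤ d * (fat G S R).card := by
  set F : V → Finset ℕ := fun v => (Finset.range R).filter fun k => v ∈ fat G S k with hF
  set g : V → ℝ := fun v => ((F v).card : ℝ) with hg
  have hstep : ∀ x y, G.Adj x y → (F y).card ≤ (F x).card + 1 := by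
    intro x y hxy
    calc (F y).card ≤ (((F x).image fun k => k - 1) ∪ {R - 1}).card := by
          refine Finset.card_le_card fun k hk => ?_
          simp only [hF, Finset.mem_filter, Finset.mem_range] at hk
          simp only [Finset.mem_union, Finset.mem_image, Finset.mem_singleton]
          by_cases hlast : k + 1 < R
          · exact Or.inl ⟨k + 1, Finset.mem_filter.2
              ⟨Finset.mem_range.2 hlast, fat_adj G hk.2 hxy.symm⟩, by omega⟩
          · exact Or.inr (by omega)
      _ ≤ _ := (Finset.card_union_le _ _).trans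
          (add_le_add Finset.card_image_le (by simp))
  have hzero : ∀ v, v ∉ fat G S R → g v = 0 := by
    intro v hv
    simp only [hg, Nat.cast_eq_zero, Finset.card_eq_zero, hF, Finset.filter_eq_empty_iff,
      Finset.mem_range]
    exact fun k hk hk' => hv (fat_mono G S hk.le hk')
  have hone : ∀ v ∈ S, g v = R := by
    intro v hv
    simp only [hg, hF, Nat.cast_inj]
    rw [Finset.filter_true_of_mem fun k _ => fat_mono G S (Nat.zero_le k) hv, Finset.card_range]
  have hgrad : ∀ x y, G.Adj x y → (g x - g y) ^ 2 ≤ if x ∈ fat G S R then 1 else 0 := by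
    intro x y hxy
    split_ifs with hx
    · rw [sq_le_one_iff_abs_le_one, abs_le]
      have h1 : ((F y).card : ℝ) ≤ (F x).card + 1 := by exact_mod_cast hstep x y hxy
      have h2 : ((F x).card : ℝ) ≤ (F y).card + 1 := by exact_mod_cast hstep y x hxy.symm
      constructor <;> simp only [hg] <;> linarith
    · have : g y = 0 := by
        simp only [hg, Nat.cast_eq_zero, Finset.card_eq_zero, hF, Finset.filter_eq_empty_iff,
          Finset.mem_range]
        exact fun k hk hk' => hx (fat_mono G S (by omega : k + 1 ≤ R) (fat_adj G hk' hxy.symm))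
      rw [this, hzero x hx]
      norm_num
  have hsub := fat_subset_succ G S R
  have key := hfk L (fat G S R) (fat G S (R + 1)) g hL hsub
    (fun v hv w hw => fat_adj G hv ((G.mem_neighborFinset v w).1 hw)) hzero
  have hlow : (R : ℝ) ^ 2 * S.card ≤ ∑ v ∈ fat G S R, g v ^ 2 := by
    calc (R : ℝ) ^ 2 * S.card = ∑ v ∈ S, g v ^ 2 := by
          rw [Finset.sum_congr rfl fun v hv => by rw [hone v hv]]
          simp [mul_comm]
      _ ≤ _ := Finset.sum_le_sum_of_subset_of_nonneg (fat_mono G S (Nat.zero_le R))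
          fun v _ _ => sq_nonneg _
  calc κ * ((L : ℝ) + 1) ^ (-a) * (R : ℝ) ^ 2 * S.card
      = κ * ((L : ℝ) + 1) ^ (-a) * ((R : ℝ) ^ 2 * S.card) := by ring
    _ ≤ κ * ((L : ℝ) + 1) ^ (-a) * ∑ v ∈ fat G S R, g v ^ 2 :=
        mul_le_mul_of_nonneg_left hlow (mul_nonneg hκ (Real.rpow_nonneg (by positivity) _))
    _ ≤ _ := key.trans ?_
  calc ∑ x ∈ fat G S (R + 1), ∑ y ∈ G.neighborFinset x, (g x - g y) ^ 2
      ≤ ∑ x ∈ fat G S (R + 1), ∑ _y ∈ G.neighborFinset x, (if x ∈ fat G S R then (1 : ℝ) else 0) :=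
        Finset.sum_le_sum fun x _ => Finset.sum_le_sum fun y hy =>
          hgrad x y ((G.mem_neighborFinset x y).1 hy)
    _ = ∑ x ∈ fat G S R, (d : ℝ) := by
        simp only [Finset.sum_const, hd, nsmul_eq_mul, mul_ite, mul_one, mul_zero]
        rw [← Finset.sum_filter, Finset.filter_mem_eq_inter, Finset.inter_eq_right.2 hsub,
          Finset.sum_const, nsmul_eq_mul]
    _ = _ := by rw [Finset.sum_const, nsmul_eq_mul, mul_comm]

section

variable [Countable V] {Γ : Type*} [Group Γ] [MulAction Γ V]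

/-- Sizes in a window. -/
def InWin (n N : ℕ) : Option (Finset V) → Prop
  | none => False
  | some S => n ≤ S.card ∧ S.card ≤ N

lemma layer_bound (h : Unimod G Γ) (hc : G.Connected) (p : unitInterval) (o : V) (n N R : ℕ)
    {W : ℝ} (hW : ∀ S : Finset V, S.card ≤ N → W * S.card ≤ (fat G S R).card) :
    ENNReal.ofReal W * setBer(G.edgeSet, p) {ω | InWin n N (kc G o ω)} ≤
      1 + ∑ x ∈ fat G {o} R, ∑ y ∈ fat G {o} R, setBer(G.edgeSet, p) (D G n x y) := by
  set μ := setBer(G.edgeSet, p)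
  set B := fat G {o} R with hB
  set f : Set (Sym2 V) → V → V → ℝ≥0∞ := fun ω x y =>
    (kc G x ω).elim 0 (fun S => if (n ≤ S.card ∧ S.card ≤ N) ∧ y ∈ fat G S R then
      (S.card : ℝ≥0∞)⁻¹ else 0) with hf
  have hfm : ∀ x y, Measurable fun ω => f ω x y := fun x y =>
    measurable_kc_comp (G := G) x fun K => K.elim 0 (fun S =>
      if (n ≤ S.card ∧ S.card ≤ N) ∧ y ∈ fat G S R then (S.card : ℝ≥0∞)⁻¹ else 0)
  have key := transport_integral h hc p f hfm (fun g ω x y => by
    simp only [hf, kc_mv h g ω x]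
    cases kc G x ω with
    | none => rfl
    | some S =>
      simp only [Option.map_some, Option.elim_some, card_mvS, fat_mv h]
      simp only [mvS, Finset.mem_image, (MulAction.injective g).eq_iff, exists_eq_right]) o
  have hout : ∀ ω, ENNReal.ofReal W * {ω | InWin n N (kc G o ω)}.indicator 1 ω ≤
      ∑' y, f ω o y := by
    intro ω
    by_cases hin' : InWin n N (kc G o ω)
    swap
    · rw [Set.indicator_of_notMem (s := {ω | InWin n N (kc G o ω)}) hin', mul_zero]
      exact zero_le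
    rw [Set.indicator_of_mem (s := {ω | InWin n N (kc G o ω)}) hin', Pi.one_apply, mul_one]
    simp only [hf]
    cases hS : kc G o ω with
    | none => rw [hS] at hin'; exact absurd hin' id
    | some S =>
      rw [hS] at hin'
      have hwin : n ≤ S.card ∧ S.card ≤ N := hin'
      simp only [Option.elim_some]
      rw [tsum_eq_sum (s := fat G S R) (fun y hy => if_neg fun h => hy h.2),
          Finset.sum_congr rfl fun y hy => if_pos ⟨hwin, hy⟩, Finset.sum_const, nsmul_eq_mul,
          ← div_eq_mul_inv, ENNReal.le_div_iff_mul_le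
            (Or.inl (by simpa using Finset.ne_empty_of_mem (self_mem_of_kc hS)))
            (Or.inl (ENNReal.natCast_ne_top _)),
          ← ENNReal.ofReal_natCast S.card, ← ENNReal.ofReal_mul' (Nat.cast_nonneg _),
          ← ENNReal.ofReal_natCast]
      exact ENNReal.ofReal_le_ofReal (hW S hwin.2)
  have hin : ∀ ω, ∑' y, f ω y o ≤
      1 + ∑ x ∈ B, ∑ y ∈ B, (D G n x y).indicator 1 ω := by
    intro ω
    set C : Finset (Finset V) := (B.filter fun x => InWin n N (kc G x ω)).image
      fun x => (kc G x ω).getD ∅ with hC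
    have hCmem : ∀ S ∈ C, ∃ x ∈ B, kc G x ω = some S ∧ n ≤ S.card ∧ S.card ≤ N := by
      intro S hS
      obtain ⟨x, hx, rfl⟩ := Finset.mem_image.1 hS
      obtain ⟨hxB, hxw⟩ := Finset.mem_filter.1 hx
      cases hK : kc G x ω with
      | none => rw [hK] at hxw; exact absurd hxw id
      | some K => rw [hK] at hxw; exact ⟨x, hxB, hK, hxw.1, hxw.2⟩
    have hdisj : (↑C : Set (Finset V)).PairwiseDisjoint id := by
      intro S hS T hT hne
      rw [Function.onFun, Finset.disjoint_left]
      intro z hzS hzT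
      obtain ⟨x, -, hx, -⟩ := hCmem S hS
      obtain ⟨y, -, hy, -⟩ := hCmem T hT
      exact hne (Option.some_injective _ ((kc_of_mem hx hzS).symm.trans (kc_of_mem hy hzT)))
    have hsum : ∑' y, f ω y o ≤ (C.card : ℝ≥0∞) := by
      rw [tsum_eq_sum (s := C.biUnion id)]
      · rw [Finset.sum_biUnion hdisj]
        refine le_trans (Finset.sum_le_sum fun S hS => ?_) (le_of_eq (by simp : ∑ _S ∈ C, (1 : ℝ≥0∞) = _))
        obtain ⟨x, -, hx, -, -⟩ := hCmem S hS
        calc ∑ y ∈ id S, f ω y o ≤ ∑ _y ∈ S, (S.card : ℝ≥0∞)⁻¹ :=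
              Finset.sum_le_sum fun y hy => by
                simp only [hf, kc_of_mem hx hy, Option.elim_some]
                split_ifs <;> simp
          _ ≤ 1 := by
              rw [Finset.sum_const, nsmul_eq_mul]
              exact ENNReal.mul_inv_le_one _
      · intro y hy
        simp only [hf]
        cases hS : kc G y ω with
        | none => rfl
        | some S =>
          simp only [Option.elim_some]
          refine if_neg fun hh => hy ?_
          obtain ⟨z, hz, w, hw⟩ := (mem_fat_iff G).1 hh.2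
          have hzB : z ∈ B := (mem_fat_iff G).2
            ⟨o, Finset.mem_singleton_self o, w.reverse, by simpa using hw⟩
          have hkz := kc_of_mem hS hz
          refine Finset.mem_biUnion.2 ⟨S, Finset.mem_image.2 ⟨z, Finset.mem_filter.2 ⟨hzB, ?_⟩, ?_⟩,
            self_mem_of_kc hS⟩
          · rw [hkz]; exact hh.1
          · rw [hkz]; rfl
    refine hsum.trans ?_
    rcases C.eq_empty_or_nonempty with h0 | ⟨S0, hS0⟩
    · simp [h0]
    obtain ⟨r0, hr0, hk0, hn0, -⟩ := hCmem S0 hS0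
    have hcount : (C.erase S0).card ≤ (B.filter fun y => ω ∈ D G n r0 y).card := by
      refine Finset.card_le_card_of_surjOn (fun y => (kc G y ω).getD ∅) ?_
      intro S hS
      obtain ⟨hne, hS'⟩ := Finset.mem_erase.1 (Finset.mem_coe.1 hS)
      obtain ⟨y, hyB, hky, hny, -⟩ := hCmem S hS'
      refine ⟨y, Finset.mem_coe.2 (Finset.mem_filter.2 ⟨hyB, ?_⟩), by simp [hky]⟩
      refine ⟨fun hr => hne ?_, ?_, ?_, Or.inl (by rw [hk0]; exact Option.some_ne_none _)⟩
      · have := kc_congr (G := G) hr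
        rw [hk0, hky, Option.some.injEq] at this
        exact this.symm
      · rw [hk0]; exact hn0
      · rw [hky]; exact hny
    calc (C.card : ℝ≥0∞) = ((C.erase S0).card : ℝ≥0∞) + 1 := by
          rw [← Finset.card_erase_add_one hS0]; push_cast; rfl
      _ ≤ ((B.filter fun y => ω ∈ D G n r0 y).card : ℝ≥0∞) + 1 :=
          add_le_add (Nat.cast_le.2 hcount) le_rfl
      _ = 1 + ∑ y ∈ B, (D G n r0 y).indicator 1 ω := by
          rw [add_comm, Finset.card_filter]
          push_cast
          simp [Set.indicator_apply]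
      _ ≤ _ := add_le_add le_rfl (Finset.single_le_sum
          (f := fun x => ∑ y ∈ B, (D G n x y).indicator (1 : Set (Sym2 V) → ℝ≥0∞) ω)
          (fun _ _ => zero_le) hr0)
  have hm : MeasurableSet {ω | InWin n N (kc G o ω)} := measurableSet_kc o _
  calc ENNReal.ofReal W * μ {ω | InWin n N (kc G o ω)}
      = ∫⁻ ω, ENNReal.ofReal W * {ω | InWin n N (kc G o ω)}.indicator 1 ω ∂μ := by
        rw [lintegral_const_mul _ (measurable_one.indicator hm), lintegral_indicator_one hm]
    _ ≤ ∫⁻ ω, ∑' y, f ω o y ∂μ := lintegral_mono hout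
    _ = ∫⁻ ω, ∑' y, f ω y o ∂μ := key
    _ ≤ ∫⁻ ω, (1 + ∑ x ∈ B, ∑ y ∈ B, (D G n x y).indicator 1 ω) ∂μ := lintegral_mono hin
    _ = _ := by
        rw [lintegral_add_left measurable_const, lintegral_const, measure_univ, mul_one,
          lintegral_finsetSum B fun x _ => Finset.measurable_sum B fun y _ =>
            measurable_one.indicator (measurableSet_D n x y)]
        congr 1
        refine Finset.sum_congr rfl fun x _ => ?_
        rw [lintegral_finsetSum B fun y _ => measurable_one.indicator (measurableSet_D n x y)]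
        exact Finset.sum_congr rfl fun y _ => lintegral_indicator_one (measurableSet_D n x y)

/-- Finite clusters are rarely large, uniformly in the parameter. -/
lemma finite_tail (h : Unimod G Γ) (hc : G.Connected) (o : V) {d : ℕ} (hd0 : 0 < d)
    (hd : ∀ x, (G.neighborFinset x).card = d)
    {C c γ : ℝ} (hc0 : 0 < c) (hγ : 1 / 3 < γ) (hγ1 : γ ≤ 1)
    (hret : ∀ (x : V) (n : ℕ), ((G.finsetWalkLength (2 * n) x x).card : ℝ) ≤
      C * (d : ℝ) ^ (2 * n) * Real.exp (-c * (n : ℝ) ^ γ))
    {p0 : ℝ} (hp0 : 0 < p0) {ε : ℝ} (hε : 0 < ε) :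
    ∃ n : ℕ, ∀ p : unitInterval, p0 ≤ (p : ℝ) →
      (setBer(G.edgeSet, p)).real {ω | ∃ S, kc G o ω = some S ∧ n ≤ S.card} ≤ ε := by
  obtain ⟨κ, hκ, hfk⟩ := faber_krahn hd0 hd hc0 (by linarith) hγ1 hret
  set a := (1 - γ) / γ with ha
  have hγ0 : 0 < γ := by linarith
  have ha0 : 0 ≤ a := div_nonneg (sub_nonneg.2 hγ1) hγ0.le
  have ha2 : a < 2 := by rw [ha, div_lt_iff₀ hγ0]; linarith
  obtain ⟨K0, hK0⟩ : ∃ K0 : ℕ, max ((2 * (1 / p0) ^ 2 * ((d : ℝ) + 1) ^ 2)) ((d : ℝ) + 1) < 2 ^ K0 :=
    pow_unbounded_of_one_lt _ one_lt_two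
  have hK1 : 1 ≤ K0 := Nat.pos_of_ne_zero fun h0 => by
    rw [h0, pow_zero] at hK0
    linarith [le_max_right ((2 * (1 / p0) ^ 2 * ((d : ℝ) + 1) ^ 2)) ((d : ℝ) + 1),
      (Nat.cast_nonneg d : (0 : ℝ) ≤ d)]
  set M : ℝ := (d : ℝ) / (κ * 4 ^ (-a)) * (4 * (K0 : ℝ)) ^ 2 * (1 + 2 * (16 * Real.sqrt (d + 1) / p0))
    with hM
  have hM0 : 0 < M := by
    have : (0 : ℝ) < K0 := by exact_mod_cast hK1
    have : (0 : ℝ) < d := by exact_mod_cast hd0
    positivity
  set r : ℝ := (2 : ℝ) ^ (a - 2) with hr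
  have hr0 : 0 < r := by positivity
  have hr1 : r < 1 := Real.rpow_lt_one_of_one_lt_of_neg one_lt_two (by linarith)
  -- one layer
  have hlayer : ∀ j : ℕ, 4 * K0 ≤ 2 ^ j → ∀ p : unitInterval, p0 ≤ (p : ℝ) →
      (setBer(G.edgeSet, p)).real {ω | InWin (2 ^ 2 ^ j) (2 ^ 2 ^ (j + 1)) (kc G o ω)} ≤ M * r ^ j := by
    intro j hj p hp
    set L : ℕ := 2 ^ j with hL
    set R : ℕ := L / (2 * K0) with hR
    have hR1 : 2 ≤ R := (Nat.le_div_iff_mul_le (by omega)).2 (by omega)
    have hRK : R * (2 * K0) ≤ L := Nat.div_mul_le_self L (2 * K0)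
    have hRlow : (L : ℝ) / (4 * K0) ≤ R := by
      rw [div_le_iff₀ (by positivity)]
      have : L ≤ R * (4 * K0) := by
        have h1 : L < (R + 1) * (2 * K0) := Nat.lt_mul_of_div_lt (Nat.lt_succ_self _) (by omega)
        nlinarith
      exact_mod_cast this
    have hd1 : (d + 1 : ℕ) ≤ 2 ^ K0 := by
      have := (le_max_right ((2 * (1 / p0) ^ 2 * ((d : ℝ) + 1) ^ 2)) ((d : ℝ) + 1)).trans hK0.le
      exact_mod_cast this
    have hgrow : ∀ S : Finset V, S.card ≤ 2 ^ (2 * L) →
        κ * (((3 * L : ℕ) : ℝ) + 1) ^ (-a) * (R : ℝ) ^ 2 / d * S.card ≤ (fat G S R).card := by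
      intro S hS
      have hcard : (fat G S R).card ≤ 2 ^ (3 * L) := by
        refine (card_fat_le G (fun x => (hd x).le) S R).trans ?_
        calc S.card * (d + 1) ^ R ≤ 2 ^ (2 * L) * (2 ^ K0) ^ R :=
              Nat.mul_le_mul hS (Nat.pow_le_pow_left hd1 R)
          _ ≤ 2 ^ (3 * L) := by
              rw [← pow_mul, ← pow_add]
              exact Nat.pow_le_pow_right (by norm_num) (by nlinarith)
      rw [div_mul_eq_mul_div, div_le_iff₀ (by exact_mod_cast hd0), mul_comm _ (d : ℝ)]
      exact fat_growth hd hfk hκ.le S R (3 * L) hcard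
    set W := κ * (((3 * L : ℕ) : ℝ) + 1) ^ (-a) * (R : ℝ) ^ 2 / d
    have hNL : 2 ^ 2 ^ (j + 1) = 2 ^ (2 * L) := by rw [hL, pow_succ']
    have hb := layer_bound h hc p o (2 ^ L) (2 ^ (2 * L)) R (W := W) hgrow
    rw [hNL]
    set μ := setBer(G.edgeSet, p)
    set B := fat G {o} R
    set ε0 : ℝ := 16 * Real.sqrt (d + 1) / p0 with hε0
    have hp' : 0 < (p : ℝ) := lt_of_lt_of_le hp0 hp
    have hip : (1 : ℝ) / p ≤ 1 / p0 := one_div_le_one_div_of_le hp0 hp
    have hip0 : (1 : ℝ) ≤ 1 / p0 := by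
      rw [le_div_iff₀ hp0, one_mul]; exact hp.trans p.2.2
    have hs : Real.sqrt ((2 ^ L : ℕ) : ℝ) * Real.sqrt ((2 ^ L : ℕ) : ℝ) = (2 : ℝ) ^ L := by
      rw [Real.mul_self_sqrt (Nat.cast_nonneg _)]; push_cast; rfl
    have hpair : ∀ x ∈ B, ∀ y ∈ B, μ.real (D G (2 ^ L) x y) ≤
        (2 * R : ℕ) * (1 / p0) ^ (2 * R) * (ε0 / Real.sqrt ((2 ^ L : ℕ) : ℝ)) := by
      intro x hx y hy
      obtain ⟨x', hx', w1, hw1⟩ := (mem_fat_iff G).1 hx
      obtain ⟨y', hy', w2, hw2⟩ := (mem_fat_iff G).1 hy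
      rw [Finset.mem_singleton] at hx' hy'
      subst hx' hy'
      have hl : (w1.reverse.append w2).length ≤ 2 * R := by simp; omega
      refine (walk_bound h hc p hp' (fun z => (hd z).le) (by positivity)
        (w1.reverse.append w2)).trans ?_
      refine mul_le_mul (mul_le_mul (Nat.cast_le.2 hl) ?_ (by positivity) (by positivity)) ?_
        (by positivity) (by positivity)
      · exact (pow_le_pow_left₀ (by positivity) hip _).trans (pow_le_pow_right₀ hip0 hl)
      · rw [hε0, div_div]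
        gcongr
    have hBcard : (B.card : ℝ) ≤ ((d : ℝ) + 1) ^ R := by
      have := card_fat_le G (fun x => (hd x).le) {o} R
      rw [Finset.card_singleton, one_mul] at this
      exact_mod_cast this
    have htot : ∑ x ∈ B, ∑ y ∈ B, μ.real (D G (2 ^ L) x y) ≤ 2 * ε0 := by
      refine (Finset.sum_le_sum fun x hx => Finset.sum_le_sum fun y hy => hpair x hx y hy).trans ?_
      simp only [Finset.sum_const, nsmul_eq_mul]
      have h2R : ((2 * R : ℕ) : ℝ) ≤ 2 * (2 : ℝ) ^ R := by
        push_cast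
        have : (R : ℝ) ≤ (2 : ℝ) ^ R := by exact_mod_cast (Nat.lt_two_pow_self).le
        linarith
      set s := Real.sqrt ((2 ^ L : ℕ) : ℝ)
      have hs0 : 0 < s := Real.sqrt_pos.2 (by positivity)
      have hsq : (2 : ℝ) ^ (K0 * R) ≤ s := by
        refine Real.le_sqrt_of_sq_le ?_
        rw [← pow_mul]
        push_cast
        exact pow_le_pow_right₀ one_le_two (by nlinarith)
      calc (B.card : ℝ) * ((B.card : ℝ) * (((2 * R : ℕ) : ℝ) * (1 / p0) ^ (2 * R) * (ε0 / s)))
          ≤ ((d : ℝ) + 1) ^ R * (((d : ℝ) + 1) ^ R *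
              (2 * (2 : ℝ) ^ R * (1 / p0) ^ (2 * R) * (ε0 / s))) := by gcongr
        _ = 2 * (2 * (1 / p0) ^ 2 * ((d : ℝ) + 1) ^ 2) ^ R * (ε0 / s) := by
            rw [mul_pow, mul_pow, ← pow_mul, ← pow_mul, mul_comm 2 R, pow_mul ((d : ℝ) + 1)]
            ring
        _ ≤ 2 * ((2 : ℝ) ^ K0) ^ R * (ε0 / s) := by
            gcongr
            exact (le_max_left _ _).trans hK0.le
        _ ≤ 2 * s * (ε0 / s) := by rw [← pow_mul]; gcongr
        _ = 2 * ε0 := by field_simp
    have hW0 : 0 < W := by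
      have : (0 : ℝ) < R := by exact_mod_cast (show 0 < R by omega)
      have : (0 : ℝ) < d := by exact_mod_cast hd0
      positivity
    have hb' := ENNReal.toReal_mono (ENNReal.add_ne_top.2 ⟨ENNReal.one_ne_top,
      ENNReal.sum_ne_top.2 fun x _ => ENNReal.sum_ne_top.2 fun y _ => measure_ne_top _ _⟩) hb
    rw [ENNReal.toReal_mul, ENNReal.toReal_ofReal hW0.le,
      ENNReal.toReal_add ENNReal.one_ne_top (ENNReal.sum_ne_top.2 fun x _ =>
        ENNReal.sum_ne_top.2 fun y _ => measure_ne_top _ _), ENNReal.toReal_one,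
      ENNReal.toReal_sum (fun x _ => ENNReal.sum_ne_top.2 fun y _ => measure_ne_top _ _)] at hb'
    simp only [ENNReal.toReal_sum (fun (y : V) _ => measure_ne_top μ _), ← measureReal_def] at hb'
    have hLr : (1 : ℝ) ≤ L := by exact_mod_cast Nat.one_le_two_pow
    have hWlow : (d : ℝ)⁻¹ * (κ * 4 ^ (-a)) / (4 * (K0 : ℝ)) ^ 2 * (L : ℝ) ^ (2 - a) ≤ W := by
      have h3 : (4 : ℝ) ^ (-a) * (L : ℝ) ^ (-a) ≤ (((3 * L : ℕ) : ℝ) + 1) ^ (-a) := by
        rw [← Real.mul_rpow (by norm_num) (by linarith)]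
        exact Real.rpow_le_rpow_of_nonpos (by positivity) (by push_cast; linarith) (neg_nonpos.2 ha0)
      calc (d : ℝ)⁻¹ * (κ * 4 ^ (-a)) / (4 * (K0 : ℝ)) ^ 2 * (L : ℝ) ^ (2 - a)
          = κ * ((4 : ℝ) ^ (-a) * (L : ℝ) ^ (-a)) * ((L : ℝ) / (4 * K0)) ^ 2 / d := by
            rw [show (2 : ℝ) - a = (2 : ℕ) + -a by push_cast; ring,
              Real.rpow_add (by linarith), Real.rpow_natCast]
            field_simp
        _ ≤ W := by simp only [W]; gcongr
    have hrj : r ^ j * (L : ℝ) ^ (2 - a) = 1 := by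
      rw [hr, hL, Nat.cast_pow, Nat.cast_ofNat, ← Real.rpow_natCast, ← Real.rpow_natCast (2 : ℝ),
        ← Real.rpow_mul zero_le_two, ← Real.rpow_mul zero_le_two, ← Real.rpow_add two_pos,
        show (a - 2) * (j : ℝ) + (j : ℝ) * (2 - a) = 0 by ring, Real.rpow_zero]
    have hQ := mul_le_mul_of_nonneg_right hWlow
      (measureReal_nonneg (μ := μ) (s := {ω | InWin (2 ^ L) (2 ^ (2 * L)) (kc G o ω)}))
    set Q := μ.real {ω | InWin (2 ^ L) (2 ^ (2 * L)) (kc G o ω)}
    calc Q = ((d : ℝ) / (κ * 4 ^ (-a)) * (4 * (K0 : ℝ)) ^ 2) * r ^ j *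
          ((d : ℝ)⁻¹ * (κ * 4 ^ (-a)) / (4 * (K0 : ℝ)) ^ 2 * (L : ℝ) ^ (2 - a) * Q) := by
          have : (0 : ℝ) < d := by exact_mod_cast hd0
          have : (0 : ℝ) < K0 := by exact_mod_cast hK1
          field_simp
          rw [mul_assoc _ (r ^ j), hrj, mul_one]
      _ ≤ ((d : ℝ) / (κ * 4 ^ (-a)) * (4 * (K0 : ℝ)) ^ 2) * r ^ j * (1 + 2 * ε0) :=
          mul_le_mul_of_nonneg_left (hQ.trans (hb'.trans (by linarith))) (by positivity)
      _ = M * r ^ j := by rw [hM, hε0]; ring
  -- sum of the layers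
  obtain ⟨j0, hj0, hj0'⟩ : ∃ j0 : ℕ, 4 * K0 ≤ 2 ^ j0 ∧ M * r ^ j0 / (1 - r) ≤ ε := by
    have ht : Tendsto (fun j : ℕ => M * r ^ j / (1 - r)) atTop (𝓝 0) := by
      simpa using ((tendsto_pow_atTop_nhds_zero_of_lt_one hr0.le hr1).const_mul M).div_const (1 - r)
    obtain ⟨j, h1, h2⟩ := ((eventually_ge_atTop (4 * K0)).and (ht.eventually (ge_mem_nhds hε))).exists
    exact ⟨j, h1.trans (Nat.lt_two_pow_self).le, h2⟩
  refine ⟨2 ^ 2 ^ j0, fun p hp => ?_⟩
  set μ := setBer(G.edgeSet, p)
  have hsub : {ω | ∃ S, kc G o ω = some S ∧ 2 ^ 2 ^ j0 ≤ S.card} ⊆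
      ⋃ i : ℕ, {ω | InWin (2 ^ 2 ^ (j0 + i)) (2 ^ 2 ^ (j0 + i + 1)) (kc G o ω)} := by
    rintro ω ⟨S, hS, hn⟩
    have hex : ∃ i, S.card ≤ 2 ^ 2 ^ (j0 + i + 1) := ⟨S.card, by
      calc S.card ≤ 2 ^ S.card := (Nat.lt_two_pow_self).le
        _ ≤ _ := Nat.pow_le_pow_right (by norm_num)
          ((Nat.lt_two_pow_self).le.trans (Nat.pow_le_pow_right (by norm_num) (by omega)))⟩
    refine Set.mem_iUnion.2 ⟨Nat.find hex, ?_⟩
    show InWin _ _ (kc G o ω)
    rw [hS]
    refine ⟨?_, Nat.find_spec hex⟩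
    rcases Nat.eq_zero_or_pos (Nat.find hex) with h0 | h0
    · rw [h0]; simpa using hn
    · have := Nat.find_min hex (show Nat.find hex - 1 < Nat.find hex by omega)
      rw [show j0 + (Nat.find hex - 1) + 1 = j0 + Nat.find hex by omega] at this
      omega
  have hgeo : HasSum (fun i : ℕ => M * r ^ (j0 + i)) (M * r ^ j0 / (1 - r)) := by
    have := (hasSum_geometric_of_lt_one hr0.le hr1).mul_left (M * r ^ j0)
    simpa [pow_add, mul_assoc, div_eq_mul_inv] using this
  refine le_trans (ENNReal.toReal_le_of_le_ofReal ((hgeo.nonneg fun i => by positivity)) ?_) hj0'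
  refine ((measure_mono hsub).trans (measure_iUnion_le _)).trans ?_
  rw [← hgeo.tsum_eq, ENNReal.ofReal_tsum_of_nonneg (fun i => by positivity) hgeo.summable]
  refine ENNReal.tsum_le_tsum fun i => ?_
  rw [← ofReal_measureReal]
  exact ENNReal.ofReal_le_ofReal (hlayer (j0 + i)
    (hj0.trans (Nat.pow_le_pow_right (by norm_num) (by omega))) p hp)

omit [Countable V] in
/-- Being large is a local event. -/
lemma big_local {o : V} {n : ℕ} (ω : Set (Sym2 V)) :
    Big n (kc G o ω) ↔ Big n (kc G o (ω ∩ ↑(inc G (fat G {o} n)))) := by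
  set ω' := ω ∩ ↑(inc G (fat G {o} n))
  have hle : openGraph G ω' ≤ openGraph G ω := openGraph_mono G Set.inter_subset_left
  have hclu : cluster G ω' o ⊆ cluster G ω o := fun z hz => hz.mono hle
  constructor
  · intro hb
    cases hK : kc G o ω' with
    | none => trivial
    | some S =>
      by_contra hlt
      change ¬ n ≤ S.card at hlt
      have hcl : ∀ a ∈ S, ∀ b, (openGraph G ω).Adj a b → b ∈ S := by
        intro a ha b hab
        obtain ⟨hA, he⟩ := openGraph_adj.1 hab
        obtain ⟨q, hq⟩ := ((mem_of_kc hK).1 ha).exists_isPath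
        have hsupp : q.support.toFinset ⊆ S := fun z hz =>
          (mem_of_kc hK).2 (q.takeUntil z (List.mem_toFinset.1 hz)).reachable
        have hlen : q.length < n := by
          have := Finset.card_le_card hsupp
          rw [List.toFinset_card_of_nodup hq.support_nodup, Walk.length_support] at this
          omega
        have hmem : a ∈ fat G {o} n := (mem_fat_iff G).2 ⟨o, Finset.mem_singleton_self o,
          q.mapLe (fun u v h => (openGraph_adj.1 h).1), by simp [Walk.mapLe]; omega⟩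
        have he' : s(a, b) ∈ ω' := ⟨he, mem_inc.2 ⟨a, hmem, b, hA, rfl⟩⟩
        exact (mem_of_kc hK).2 (((mem_of_kc hK).1 ha).trans
          (openGraph_adj.2 ⟨hA, he'⟩ : (openGraph G ω').Adj a b).reachable)
      have hS : kc G o ω = some S := by
        refine kc_eq_some.2 (Set.ext fun z => ⟨fun hz => reach_closed hcl (self_mem_of_kc hK) hz,
          fun hz => hclu (by rw [kc_eq_some.1 hK]; exact hz)⟩)
      rw [hS] at hb
      exact hlt hb
  · intro hb
    cases hK : kc G o ω with
    | none => trivial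
    | some S =>
      cases hK' : kc G o ω' with
      | none =>
        exact absurd (S.finite_toSet.subset (by rw [← kc_eq_some.1 hK]; exact hclu))
          (kc_eq_none.1 hK')
      | some T =>
        rw [hK'] at hb
        refine le_trans hb (Finset.card_le_card fun z hz => ?_)
        exact (mem_of_kc hK).2 (((mem_of_kc hK').1 hz).mono hle)

omit [Countable V] in
lemma big_prob (o : V) (n : ℕ) : ∃ P : ℝ → ℝ, Continuous P ∧ ∀ p : unitInterval,
    (setBer(G.edgeSet, p)).real {ω | Big n (kc G o ω)} = P p := by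
  set F := inc G (fat G {o} n) with hF
  set Os := F.powerset.filter fun O : Finset (Sym2 V) => Big n (kc G o (↑O : Set (Sym2 V))) with hOs
  refine ⟨fun x => ∑ O ∈ Os, x ^ O.card * (1 - x) ^ (F \ O).card,
    continuous_finsetSum _ fun O _ =>
      (continuous_pow _).mul ((continuous_const.sub continuous_id).pow _), fun p => ?_⟩
  have hset : {ω | Big n (kc G o ω)} = ⋃ O ∈ Os, pat O (F \ O) := by
    ext ω
    simp only [Set.mem_ofPred_eq, Set.mem_iUnion, hOs, Finset.mem_filter, Finset.mem_powerset]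
    have key : ∀ O ⊆ F, ω ∈ pat O (F \ O) → ω ∩ ↑F = (↑O : Set (Sym2 V)) := fun O hO hω => by
      ext e
      refine ⟨fun he => ?_, fun he => ⟨hω.1 he, hO he⟩⟩
      by_contra hne
      exact Set.disjoint_left.1 hω.2 (Finset.mem_coe.2 (Finset.mem_sdiff.2 ⟨he.2, hne⟩)) he.1
    constructor
    · intro hb
      refine ⟨F.filter (fun e => e ∈ ω), ⟨Finset.filter_subset _ _, ?_⟩, ?_, ?_⟩
      · rw [big_local, ← hF] at hb
        have : ω ∩ ↑F = (↑(F.filter fun e => e ∈ ω) : Set (Sym2 V)) := by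
          ext e; simp [and_comm]
        rwa [this] at hb
      · exact fun e he => (Finset.mem_filter.1 he).2
      · refine Set.disjoint_left.2 fun e he he' => ?_
        simp only [Finset.mem_coe, Finset.mem_sdiff, Finset.mem_filter, not_and] at he
        exact he.2 he.1 he'
    · rintro ⟨O, ⟨hO, hb⟩, hω⟩
      rw [big_local, ← hF, key O hO hω]
      exact hb
  rw [hset, measureReal_biUnion_finset]
  · refine Finset.sum_congr rfl fun O hO => ?_
    have hOF : O ⊆ F := Finset.mem_powerset.1 (Finset.mem_filter.1 hO).1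
    exact measure_pat G.edgeSet p Finset.disjoint_sdiff (fun e he => by
      rw [Finset.union_sdiff_of_subset hOF] at he
      obtain ⟨a, -, b, hab, rfl⟩ := mem_inc.1 he
      exact hab)
  · intro O hO O' hO' hne
    refine Set.disjoint_left.2 fun ω h1 h2 => hne (Finset.ext fun e => ?_)
    have hOF : O ⊆ F := Finset.mem_powerset.1 (Finset.mem_filter.1 hO).1
    have hOF' : O' ⊆ F := Finset.mem_powerset.1 (Finset.mem_filter.1 hO').1
    constructor
    · intro he
      by_contra hn
      exact Set.disjoint_left.1 h2.2 (Finset.mem_coe.2 (Finset.mem_sdiff.2 ⟨hOF he, hn⟩)) (h1.1 he)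
    · intro he
      by_contra hn
      exact Set.disjoint_left.1 h1.2 (Finset.mem_coe.2 (Finset.mem_sdiff.2 ⟨hOF' he, hn⟩)) (h2.1 he)
  · exact fun O _ => measurableSet_pat O _

end

/-- No percolation at criticality. -/
theorem no_critical_percolation (G : SimpleGraph V) [G.LocallyFinite] [Infinite V] {Γ : Type*}
    [Group Γ] [MulAction Γ V] (h : Unimod G Γ) (hc : G.Connected) {C c γ : ℝ} (hc0 : 0 < c)
    (hγ : 1 / 3 < γ)
    (hret : ∀ (x : V) (n : ℕ), ((G.finsetWalkLength (2 * n) x x).card : ℝ) ≤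
      C * (G.degree x : ℝ) ^ (2 * n) * Real.exp (-c * (n : ℝ) ^ γ)) :
    pc G < 1 ∧ ∀ p : unitInterval, (p : ℝ) = pc G → setBer(G.edgeSet, p) (percolates G) = 0 := by
  haveI : Countable V := countable_of_connected G hc
  obtain ⟨o⟩ := hc.nonempty
  set d := (G.neighborFinset o).card with hdd
  have hd : ∀ x, (G.neighborFinset x).card = d := by
    intro x
    obtain ⟨g, rfl⟩ := h.trans o x
    rw [hdd, ← card_mvS g (G.neighborFinset o)]
    congr 1
    ext z
    obtain ⟨b, rfl⟩ : ∃ b, g • b = z := ⟨g⁻¹ • z, smul_inv_smul g z⟩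
    simp [mvS, h.adj g o b]
  have hd0 : 0 < d := by
    obtain ⟨v, hv⟩ := exists_ne o
    obtain ⟨w⟩ := hc.preconnected o v
    cases w with
    | nil => exact absurd rfl hv
    | cons ha q => exact Finset.card_pos.2 ⟨_, (G.mem_neighborFinset o _).2 ha⟩
  set γ' := min γ 1 with hγ'
  have hγ'0 : 1 / 3 < γ' := lt_min hγ (by norm_num)
  have hret' : ∀ (x : V) (n : ℕ), ((G.finsetWalkLength (2 * n) x x).card : ℝ) ≤
      max C 0 * (d : ℝ) ^ (2 * n) * Real.exp (-c * (n : ℝ) ^ γ') := by
    intro x n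
    refine (hret x n).trans ?_
    rw [← SimpleGraph.card_neighborFinset_eq_degree, hd x]
    have hle : (n : ℝ) ^ γ' ≤ (n : ℝ) ^ γ := by
      rcases Nat.eq_zero_or_pos n with rfl | hn
      · rw [Nat.cast_zero, Real.zero_rpow (by linarith), Real.zero_rpow (by linarith)]
      · exact Real.rpow_le_rpow_of_exponent_le (by exact_mod_cast hn) (min_le_left _ _)
    exact mul_le_mul (mul_le_mul_of_nonneg_right (le_max_left _ _) (by positivity))
      (Real.exp_le_exp.2 (by nlinarith)) (Real.exp_pos _).le (by positivity)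
  set μ := fun p : unitInterval => setBer(G.edgeSet, p) with hμ
  set P := {p : unitInterval | 0 < μ p (percolates G)} with hP
  have hone : (1 : unitInterval) ∈ P := by
    simp only [hP, hμ, Set.mem_ofPred_eq, setBernoulli_one]
    have hall : G.edgeSet ∈ percolates G := by
      refine ⟨o, ?_⟩
      have : cluster G G.edgeSet o = Set.univ := Set.eq_univ_of_forall fun z => by
        have : openGraph G G.edgeSet = G := by simp [openGraph]
        show (openGraph G G.edgeSet).Reachable o z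
        rw [this]; exact hc.preconnected o z
      rw [this]; exact Set.infinite_univ
    rw [Measure.dirac_apply_of_mem hall]
    exact one_pos
  have hbdd : BddBelow ((fun p : unitInterval => (p : ℝ)) '' P) :=
    ⟨0, by rintro _ ⟨q, -, rfl⟩; exact q.2.1⟩
  have hpc1 : pc G ≤ 1 := csInf_le hbdd ⟨1, hone, rfl⟩
  have hpc0 : 0 ≤ pc G :=
    le_csInf ⟨_, 1, hone, rfl⟩ (by rintro _ ⟨q, -, rfl⟩; exact q.2.1)
  have hbelow : ∀ p : unitInterval, (p : ℝ) < pc G → μ p (percolates G) = 0 := fun p hp => by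
    by_contra hne
    exact not_lt.2 (csInf_le hbdd ⟨p, pos_iff_ne_zero.2 hne, rfl⟩) hp
  have hall : ∀ p : unitInterval, (p : ℝ) = pc G → μ p (infAt G o) = 0 → μ p (percolates G) = 0 := by
    intro p _ h0
    rw [percolates_eq, measure_iUnion_null_iff]
    intro x
    obtain ⟨g, rfl⟩ := h.trans o x
    rw [← auto_apply h g o, hμ]
    simp only [measure_infAt_iso (auto h g) p o]
    exact h0
  rcases hpc0.eq_or_lt with h0 | h0
  · refine ⟨by rw [← h0]; exact one_pos, fun p hp => hall p hp ?_⟩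
    have : p = 0 := Subtype.ext (by rw [hp, ← h0]; rfl)
    rw [this]
    simp only [hμ, setBernoulli_zero]
    rw [Measure.dirac_apply' _ (measurableSet_infAt G o), Set.indicator_of_notMem]
    intro hinf
    refine (hinf : (cluster G ∅ o).Infinite) ((Set.finite_singleton o).subset fun z hz => ?_)
    obtain ⟨w⟩ := (hz : (openGraph G ∅).Reachable o z)
    cases w with
    | nil => rfl
    | cons ha q => exact absurd (openGraph_adj.1 ha).2 (Set.notMem_empty _)
  -- main case
  set q : unitInterval := ⟨pc G, hpc0, hpc1⟩ with hq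
  have hsmall : ∀ ε : ℝ, 0 < ε → (μ q).real (infAt G o) ≤ ε := by
    intro ε hε
    obtain ⟨n, hn⟩ := finite_tail h hc o hd0 hd hc0 hγ'0 (min_le_right _ _) hret'
      (p0 := pc G / 2) (by linarith) hε
    obtain ⟨P', hPc, hP'⟩ := big_prob (G := G) o n
    have hle : ∀ p : unitInterval, pc G / 2 ≤ (p : ℝ) → (p : ℝ) < pc G → P' p ≤ ε := by
      intro p h1 h2
      rw [← hP']
      have hinf0 : μ p (infAt G o) = 0 :=
        measure_mono_null (fun ω (hω : ω ∈ infAt G o) => (⟨o, hω⟩ : ω ∈ percolates G)) (hbelow p h2)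
      have hsub : {ω | Big n (kc G o ω)} ⊆
          infAt G o ∪ {ω | ∃ S, kc G o ω = some S ∧ n ≤ S.card} := by
        intro ω hω
        cases hK : kc G o ω with
        | none => exact Or.inl (kc_eq_none.1 hK)
        | some S => exact Or.inr ⟨S, hK, by simpa [hK, Big] using hω⟩
      refine ((measureReal_mono hsub).trans (measureReal_union_le _ _)).trans ?_
      rw [measureReal_def, hinf0, ENNReal.toReal_zero, zero_add]
      exact hn p h1
    have hlim : Tendsto (fun k : ℕ => pc G - pc G / 2 / ((k : ℝ) + 1)) atTop (𝓝 (pc G)) := by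
      simpa [div_eq_mul_one_div (pc G / 2)] using
        (tendsto_one_div_add_atTop_nhds_zero_nat.const_mul (pc G / 2)).const_sub (pc G)
    have hPq : P' (pc G) ≤ ε := le_of_tendsto ((hPc.tendsto _).comp hlim)
      (Eventually.of_forall fun k => by
        have hk : (0 : ℝ) < (k : ℝ) + 1 := by positivity
        have h1 : pc G / 2 / ((k : ℝ) + 1) ≤ pc G / 2 :=
          div_le_self (by linarith) (by linarith [(Nat.cast_nonneg k : (0 : ℝ) ≤ k)])
        have h2 : 0 < pc G / 2 / ((k : ℝ) + 1) := by positivity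
        exact hle ⟨pc G - pc G / 2 / ((k : ℝ) + 1), by linarith, by linarith⟩
          (by simp only; linarith) (by simp only; linarith))
    refine (measureReal_mono ?_).trans ((hP' q).trans_le hPq)
    intro ω hω
    show Big n (kc G o ω)
    rw [kc_eq_none.2 hω]
    trivial
  have hzero : μ q (infAt G o) = 0 := by
    have hr : (μ q).real (infAt G o) = 0 :=
      le_antisymm (le_of_forall_pos_le_add fun ε hε => by linarith [hsmall ε hε]) measureReal_nonneg
    exact (measureReal_eq_zero_iff).1 hr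
  refine ⟨lt_of_le_of_ne hpc1 fun h1 => ?_, fun p hp => ?_⟩
  · have hq1 : q = 1 := Subtype.ext (by simpa [hq] using h1)
    rw [hq1] at hzero
    simp only [hP, Set.mem_ofPred_eq] at hone
    exact hone.ne' (hall 1 (by simpa using h1.symm) hzero)
  · have : p = q := Subtype.ext hp
    exact hall p hp (this ▸ hzero)

end P151

namespace P151

open MeasureTheory ProbabilityTheory SimpleGraph P165
open scoped Classical

/-- Translation of closed walks. -/
lemma card_walk_smul {V : Type*} {G : SimpleGraph V} [G.LocallyFinite] {Γ : Type*} [Group Γ]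
    [MulAction Γ V] (h : Unimod G Γ) (g : Γ) : ∀ (n : ℕ) (x y : V),
    (G.finsetWalkLength n (g • x) (g • y)).card = (G.finsetWalkLength n x y).card := by
  intro n
  induction n with
  | zero =>
    intro x y
    by_cases hxy : x = y
    · subst hxy; simp [SimpleGraph.finsetWalkLength]
    · simp [SimpleGraph.finsetWalkLength, hxy, (MulAction.injective g).ne hxy]
  | succ n ih =>
    intro x y
    have hN : G.neighborFinset (g • x) = mvS g (G.neighborFinset x) := by
      ext z
      obtain ⟨b, rfl⟩ : ∃ b, g • b = z := ⟨g⁻¹ • z, smul_inv_smul g z⟩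
      simp [mvS, h.adj g x b]
    rw [card_walk_succ, card_walk_succ, hN, mvS, Finset.sum_image (MulAction.injective g).injOn]
    exact Finset.sum_congr rfl fun b _ => ih b y

/-- The case of graphs on groups invariant under left multiplication. -/
theorem no_critical_percolation_group {Γ : Type*} [Group Γ] [Infinite Γ] (G : SimpleGraph Γ)
    [G.LocallyFinite] (ha : ∀ g x y : Γ, G.Adj (g * x) (g * y) ↔ G.Adj x y) (hc : G.Connected)
    {C c γ : ℝ} (hc0 : 0 < c) (hγ : 1 / 3 < γ)
    (hret : ∀ n : ℕ, ((G.finsetWalkLength (2 * n) 1 1).card : ℝ) ≤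
      C * (G.degree 1 : ℝ) ^ (2 * n) * Real.exp (-c * (n : ℝ) ^ γ)) :
    pc G < 1 ∧ ∀ p : unitInterval, (p : ℝ) = pc G → setBer(G.edgeSet, p) (percolates G) = 0 := by
  have h : Unimod G Γ := by
    refine ⟨fun g x y => by simpa [smul_eq_mul] using ha g x y,
      fun x y => ⟨y * x⁻¹, by simp⟩, fun x y => ?_⟩
    have : ∀ a b : Γ, {z | ∃ g : Γ, g • a = a ∧ g • b = z} = {b} := fun a b => by
      ext z
      simp only [smul_eq_mul, Set.mem_ofPred_eq, Set.mem_singleton_iff]
      constructor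
      · rintro ⟨g, hg, rfl⟩
        rw [mul_eq_right] at hg
        rw [hg, one_mul]
      · rintro rfl
        exact ⟨1, one_mul _, one_mul _⟩
    rw [this x y, this y x, Set.ncard_singleton, Set.ncard_singleton]
  refine no_critical_percolation G h hc (C := C) hc0 hγ fun x n => ?_
  have e : G.degree x = G.degree 1 := by
    simp only [← card_neighborFinset_eq_degree]
    rw [← card_mvS x (G.neighborFinset 1)]
    congr 1
    ext z
    obtain ⟨b, rfl⟩ : ∃ b, x • b = z := ⟨x⁻¹ • z, smul_inv_smul x z⟩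
    simp only [mvS, Finset.mem_image, (MulAction.injective x).eq_iff, exists_eq_right,
      mem_neighborFinset]
    simpa [smul_eq_mul] using ha x 1 b
  have hw := card_walk_smul h x (2 * n) 1 1
  rw [smul_eq_mul, mul_one] at hw
  rw [hw, e]
  exact hret n

end P151
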