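import Vale.Agent.P151.Ghost

/-!
# P151: the exploration martingale of a finite cluster
-/

namespace P151

open MeasureTheory ProbabilityTheory SimpleGraph P165
open scoped ENNReal Classical

variable {V : Type*} {G : SimpleGraph V} [G.LocallyFinite]

/-- Closure of the explored set. -/
lemma reach_closed {ω : Set (Sym2 V)} {S : Finset V}
    (hS : ∀ a ∈ S, ∀ b, (openGraph G ω).Adj a b → b ∈ S) {a b : V} (ha : a ∈ S)
    (hr : (openGraph G ω).Reachable a b) : b ∈ S := by
  obtain ⟨w⟩ := hr
  induction w with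
  | nil => exact ha
  | cons h q ih => exact ih (hS _ ha _ h)

/-- The squared fluctuation of a cluster of size at most `m`. -/
noncomputable def sqF (G : SimpleGraph V) [G.LocallyFinite] (p : ℝ) (m : ℕ) (o : V)
    (ω : Set (Sym2 V)) : ℝ≥0∞ :=
  (kc G o ω).elim 0 fun K => if K.card ≤ m then ENNReal.ofReal (fluc G p K ω ^ 2) else 0

lemma measurable_sqF [Countable V] (p : ℝ) (m : ℕ) (o : V) : Measurable (sqF G p m o) := by
  refine measurable_to_real_of_option (G := G) o
    (fun K ω => if K.card ≤ m then ENNReal.ofReal (fluc G p K ω ^ 2) else 0) fun K => ?_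
  split_ifs
  · exact ((Finset.measurable_sum _ fun e _ => measurable_cE p e).pow_const 2).ennreal_ofReal
  · exact measurable_const

omit [G.LocallyFinite] in
lemma measurableSet_pat (O C : Finset (Sym2 V)) : MeasurableSet (pat O C) := by
  have : pat O C = (⋂ e ∈ O, {ω : Set (Sym2 V) | e ∈ ω}) ∩ ⋂ e ∈ C, {ω | e ∈ ω}ᶜ := by
    ext ω
    simp only [pat, Set.disjoint_left, Set.mem_ofPred_eq, Set.mem_inter_iff, Set.mem_iInter,
      Set.mem_compl_iff, Finset.mem_coe]
    exact Iff.rfl
  rw [this]
  exact (Finset.measurableSet_biInter _ fun e _ => measurableSet_edge e).inter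
    (Finset.measurableSet_biInter _ fun e _ => (measurableSet_edge e).compl)

omit [G.LocallyFinite] in
lemma measure_pat' (p : unitInterval) {O C : Finset (Sym2 V)} (hd : Disjoint O C)
    (hE : ↑(O ∪ C) ⊆ G.edgeSet) :
    setBer(G.edgeSet, p) (pat O C) = ENNReal.ofReal ((p : ℝ) ^ O.card * (1 - (p : ℝ)) ^ C.card) := by
  rw [← measure_pat G.edgeSet p hd hE, measureReal_def, ENNReal.ofReal_toReal (measure_ne_top _ _)]

lemma moment_step [Countable V] (p : unitInterval) {d : ℕ}
    (hd : ∀ x, (G.neighborFinset x).card ≤ d) (m : ℕ) (o : V) :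
    ∀ (k : ℕ) (S : Finset V) (O C : Finset (Sym2 V)), o ∈ S → Disjoint O C →
      O ∪ C ⊆ inc G S → (∀ e ∈ O, ∀ v ∈ e, v ∈ S) →
      (∀ ω ∈ pat O C, ∀ a ∈ S, (openGraph G ω).Reachable o a) →
      d * m + 1 ≤ k + (O ∪ C).card →
      ∫⁻ ω in pat O C, sqF G p m o ω ∂setBer(G.edgeSet, p) ≤
        ENNReal.ofReal ((p : ℝ) ^ O.card * (1 - (p : ℝ)) ^ C.card *
          (((p : ℝ) * C.card - (1 - (p : ℝ)) * O.card) ^ 2 + p * (1 - p) * k)) := by
  intro k
  induction k using Nat.strong_induction_on with
  | _ k ih =>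
  intro S O C ho hdis hsub hO hreach hk
  have hp0 : (0 : ℝ) ≤ p := p.2.1
  have hp1 : (0 : ℝ) ≤ 1 - p := sub_nonneg.2 p.2.2
  have hedge : ∀ e ∈ inc G S, e ∈ G.edgeSet := fun e he => by
    obtain ⟨a, -, b, hab, rfl⟩ := mem_inc.1 he
    exact hab
  by_cases hfr : inc G S ⊆ O ∪ C
  · -- the cluster is determined
    have hEq : inc G S = O ∪ C := le_antisymm hfr hsub
    have hclu : ∀ ω ∈ pat O C, kc G o ω = some S := by
      intro ω hω
      have hcl : ∀ a ∈ S, ∀ b, (openGraph G ω).Adj a b → b ∈ S := by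
        intro a ha b hab
        obtain ⟨hA, he⟩ := openGraph_adj.1 hab
        rcases Finset.mem_union.1 (hfr (mem_inc.2 ⟨a, ha, b, hA, rfl⟩)) with h | h
        · exact hO _ h b (Sym2.mem_mk_right a b)
        · exact absurd he (Set.disjoint_left.1 hω.2 h)
      refine kc_eq_some.2 (Set.ext fun a => ⟨fun ha => reach_closed hcl ho ha, fun ha => hreach ω hω a ha⟩)
    set v : ℝ := (p : ℝ) * C.card - (1 - (p : ℝ)) * O.card
    have hpt : ∀ ω ∈ pat O C, sqF G p m o ω ≤ ENNReal.ofReal (v ^ 2) := by
      intro ω hω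
      rw [sqF, hclu ω hω, Option.elim_some]
      split_ifs
      · refine le_of_eq ?_
        have e1 : ∑ x ∈ O, cE (p : ℝ) x ω = ∑ _x ∈ O, -(1 - (p : ℝ)) :=
          Finset.sum_congr rfl fun e he => if_pos (hω.1 he)
        have e2 : ∑ x ∈ C, cE (p : ℝ) x ω = ∑ _x ∈ C, (p : ℝ) :=
          Finset.sum_congr rfl fun e he => if_neg (Set.disjoint_left.1 hω.2 he)
        rw [fluc, hEq, Finset.sum_union hdis, e1, e2, Finset.sum_const, Finset.sum_const]
        congr 1
        simp only [nsmul_eq_mul, v]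
        ring
      · exact zero_le
    calc ∫⁻ ω in pat O C, sqF G p m o ω ∂setBer(G.edgeSet, p)
        ≤ ∫⁻ _ω in pat O C, ENNReal.ofReal (v ^ 2) ∂setBer(G.edgeSet, p) :=
          setLIntegral_mono' (measurableSet_pat O C) hpt
      _ = ENNReal.ofReal (v ^ 2) * setBer(G.edgeSet, p) (pat O C) := setLIntegral_const _ _
      _ ≤ _ := by
          rw [measure_pat' p hdis (fun e he => hedge e (hsub he)), ← ENNReal.ofReal_mul (sq_nonneg _)]
          refine ENNReal.ofReal_le_ofReal ?_
          rw [mul_comm]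
          exact mul_le_mul_of_nonneg_left
            (le_add_of_nonneg_right (mul_nonneg (mul_nonneg hp0 hp1) (Nat.cast_nonneg k)))
            (mul_nonneg (pow_nonneg hp0 _) (pow_nonneg hp1 _))
  · obtain ⟨e, heI, hne⟩ := Finset.not_subset.1 hfr
    obtain ⟨a, ha, b, hab, rfl⟩ := mem_inc.1 heI
    have hnO : s(a, b) ∉ O := fun h => hne (Finset.mem_union_left _ h)
    have hnC : s(a, b) ∉ C := fun h => hne (Finset.mem_union_right _ h)
    rcases Nat.eq_zero_or_pos k with hk0 | hk0
    · -- too many explored edges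
      refine le_trans (le_of_eq ?_) zero_le
      refine setLIntegral_eq_zero (measurableSet_pat O C) fun ω hω => ?_
      cases hK : kc G o ω with
      | none => simp [sqF, hK]
      | some K =>
        simp only [sqF, hK, Option.elim_some, Pi.zero_apply]
        refine if_neg fun hKm => ?_
        have hSK : S ⊆ K := fun x hx => (mem_of_kc hK).2 (hreach ω hω x hx)
        have := (Finset.card_le_card (hsub.trans (inc_mono hSK))).trans
          ((inc_card hd K).trans (Nat.mul_le_mul_left d hKm))
        omega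
    · obtain ⟨j, rfl⟩ : ∃ j, k = j + 1 := ⟨k - 1, by omega⟩
      have h1 := ih j (Nat.lt_succ_self j) (insert b S) (insert s(a, b) O) C
        (Finset.mem_insert_of_mem ho) (Finset.disjoint_insert_left.2 ⟨hnC, hdis⟩)
        (by
          rw [Finset.insert_union]
          exact Finset.insert_subset (inc_mono (Finset.subset_insert _ _) heI)
            (hsub.trans (inc_mono (Finset.subset_insert _ _))))
        (by
          intro f hf x hx
          rcases Finset.mem_insert.1 hf with rfl | hf
          · rcases Sym2.mem_iff.1 hx with rfl | rfl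
            · exact Finset.mem_insert_of_mem ha
            · exact Finset.mem_insert_self _ _
          · exact Finset.mem_insert_of_mem (hO f hf x hx))
        (by
          intro ω hω x hx
          have hω' : ω ∈ pat O C :=
            ⟨(Finset.coe_subset.2 (Finset.subset_insert _ _)).trans hω.1, hω.2⟩
          rcases Finset.mem_insert.1 hx with rfl | hx
          · exact (hreach ω hω' a ha).trans (SimpleGraph.Adj.reachable
              (openGraph_adj.2 ⟨hab, hω.1 (Finset.mem_insert_self _ _)⟩))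
          · exact hreach ω hω' x hx)
        (by rw [Finset.insert_union, Finset.card_insert_of_notMem hne]; omega)
      have h2 := ih j (Nat.lt_succ_self j) S O (insert s(a, b) C) ho
        (Finset.disjoint_insert_right.2 ⟨hnO, hdis⟩)
        (by rw [Finset.union_insert]; exact Finset.insert_subset heI hsub) hO
        (by
          intro ω hω x hx
          exact hreach ω ⟨hω.1, hω.2.mono_left (Finset.coe_subset.2 (Finset.subset_insert _ _))⟩ x hx)
        (by rw [Finset.union_insert, Finset.card_insert_of_notMem hne]; omega)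
      rw [Finset.card_insert_of_notMem hnO] at h1
      rw [Finset.card_insert_of_notMem hnC] at h2
      have hsplit : pat O C ⊆ pat (insert s(a, b) O) C ∪ pat O (insert s(a, b) C) := by
        rintro ω ⟨u1, u2⟩
        by_cases he : s(a, b) ∈ ω
        · exact Or.inl ⟨by rw [Finset.coe_insert, Set.insert_subset_iff]; exact ⟨he, u1⟩, u2⟩
        · exact Or.inr ⟨u1, by rw [Finset.coe_insert, Set.disjoint_insert_left]; exact ⟨he, u2⟩⟩
      refine ((lintegral_mono_set hsplit).trans (lintegral_union_le _ _ _)).trans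
        ((add_le_add h1 h2).trans ?_)
      have hw0 : ∀ i l : ℕ, 0 ≤ (p : ℝ) ^ i * (1 - (p : ℝ)) ^ l := fun i l =>
        mul_nonneg (pow_nonneg hp0 _) (pow_nonneg hp1 _)
      have hb : ∀ x : ℝ, 0 ≤ x ^ 2 + (p : ℝ) * (1 - p) * j := fun x =>
        add_nonneg (sq_nonneg _) (mul_nonneg (mul_nonneg hp0 hp1) (Nat.cast_nonneg j))
      rw [← ENNReal.ofReal_add (mul_nonneg (hw0 _ _) (hb _)) (mul_nonneg (hw0 _ _) (hb _))]
      refine le_of_eq (congrArg ENNReal.ofReal ?_)
      push_cast
      ring

lemma moment [Countable V] (p : unitInterval) {d : ℕ} (hd : ∀ x, (G.neighborFinset x).card ≤ d)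
    (m : ℕ) (o : V) :
    ∫⁻ ω, sqF G p m o ω ∂setBer(G.edgeSet, p) ≤ ENNReal.ofReal ((d * m + 1 : ℕ) : ℝ) := by
  have h := moment_step (G := G) p hd m o (d * m + 1) {o} ∅ ∅ (Finset.mem_singleton_self o)
    (Finset.disjoint_empty_left _) (by simp) (by simp)
    (fun ω _ a ha => by rw [Finset.mem_singleton.1 ha]) (by simp)
  have hu : pat (∅ : Finset (Sym2 V)) ∅ = Set.univ := by ext ω; simp [pat]
  rw [hu, setLIntegral_univ] at h
  refine h.trans (ENNReal.ofReal_le_ofReal ?_)
  simp only [Finset.card_empty, pow_zero, Nat.cast_zero, mul_zero, sub_zero]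
  have : (p : ℝ) * (1 - p) ≤ 1 := by
    nlinarith [p.2.1, p.2.2]
  nlinarith [this, show (0 : ℝ) ≤ ((d * m + 1 : ℕ) : ℝ) from Nat.cast_nonneg _]

/-- The weighted absolute fluctuation is small. -/
lemma weighted_fluc [Countable V] (p : unitInterval) {d : ℕ}
    (hd : ∀ x, (G.neighborFinset x).card ≤ d) {n : ℕ} (hn : 0 < n) (o : V) :
    |∫ ω, (kc G o ω).elim 0 (fun K => min ((K.card : ℝ) / n) 1 / K.card * fluc G p K ω)
        ∂setBer(G.edgeSet, p)| ≤ 8 * Real.sqrt (d + 1) / Real.sqrt n := by
  set μ := setBer(G.edgeSet, p)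
  set g : Set (Sym2 V) → ℝ := fun ω =>
    (kc G o ω).elim 0 (fun K => min ((K.card : ℝ) / n) 1 / K.card * fluc G p K ω)
  have hn' : (0 : ℝ) < n := Nat.cast_pos.2 hn
  set r : ℝ := Real.sqrt (d + 1) * Real.sqrt n with hr
  have hr0 : 0 < r := by positivity
  have hbound : ∀ ω, ENNReal.ofReal |g ω| ≤ ∑' j : ℕ,
      (ENNReal.ofReal (2 / (4 ^ j * n) / (2 ^ j * r)) * sqF G p (4 ^ j * n) o ω +
        ENNReal.ofReal (2 / (4 ^ j * n) * (2 ^ j * r))) := by
    intro ω
    cases hK : kc G o ω with
    | none => simp [g, hK]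
    | some K =>
      have hex : ∃ j : ℕ, K.card ≤ 4 ^ j * n := ⟨K.card, by
        calc K.card ≤ 4 ^ K.card := (Nat.lt_pow_self (by norm_num)).le
          _ ≤ 4 ^ K.card * n := Nat.le_mul_of_pos_right _ hn⟩
      refine le_trans ?_ (ENNReal.le_tsum (Nat.find hex))
      have hj := Nat.find_spec hex
      set j := Nat.find hex with hjd
      simp only [sqF, hK, Option.elim_some, if_pos hj, g]
      rw [← ENNReal.ofReal_mul (by positivity), ← ENNReal.ofReal_add (by positivity) (by positivity)]
      refine ENNReal.ofReal_le_ofReal ?_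
      have hkpos : (0 : ℝ) < K.card := Nat.cast_pos.2 (Finset.card_pos.2 ⟨o, self_mem_of_kc hK⟩)
      have hmin : min ((K.card : ℝ) / n) 1 / K.card ≤ 4 / (4 ^ j * n) := by
        rcases Nat.eq_zero_or_pos j with h0 | h0
        · rw [h0, pow_zero, one_mul]
          calc min ((K.card : ℝ) / n) 1 / K.card ≤ (K.card : ℝ) / n / K.card :=
                div_le_div_of_nonneg_right (min_le_left _ _) hkpos.le
            _ = 1 / n := by field_simp
            _ ≤ 4 / n := div_le_div_of_nonneg_right (by norm_num) hn'.le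
        · obtain ⟨i, hi⟩ : ∃ i, j = i + 1 := ⟨j - 1, by omega⟩
          have hlt : (4 : ℝ) ^ i * n < K.card := by
            have := Nat.find_min hex (show i < Nat.find hex by omega)
            exact_mod_cast not_le.1 this
          rw [hi, pow_succ, show (4 : ℝ) ^ i * 4 * n = 4 * ((4 : ℝ) ^ i * n) by ring,
            div_mul_eq_div_div, div_self (by norm_num : (4 : ℝ) ≠ 0)]
          exact (div_le_div_of_nonneg_right (min_le_right _ _) hkpos.le).trans
            (one_div_le_one_div_of_le (by positivity) hlt.le)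
      set f := fluc G p K ω
      set s : ℝ := 2 ^ j * r
      have hs : 0 < s := by positivity
      have hamgm : |f| ≤ (f ^ 2 / s + s) / 2 := by
        rw [le_div_iff₀ two_pos, div_add' _ _ _ hs.ne', le_div_iff₀ hs]
        nlinarith [sq_nonneg (|f| - s), sq_abs f]
      rw [abs_mul, abs_of_nonneg (div_nonneg (le_min (by positivity) zero_le_one) hkpos.le)]
      calc min ((K.card : ℝ) / n) 1 / K.card * |f| ≤ 4 / (4 ^ j * n) * ((f ^ 2 / s + s) / 2) :=
            mul_le_mul hmin hamgm (abs_nonneg _) (by positivity)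
        _ = _ := by ring
  have hsum : ∫⁻ ω, ENNReal.ofReal |g ω| ∂μ ≤
      ENNReal.ofReal (8 * Real.sqrt (d + 1) / Real.sqrt n) := by
    refine (lintegral_mono hbound).trans ?_
    rw [lintegral_tsum fun j => (((measurable_sqF _ _ o).const_mul _).add_const _).aemeasurable]
    have hterm : ∀ j : ℕ, ∫⁻ ω, (ENNReal.ofReal (2 / (4 ^ j * n) / (2 ^ j * r)) *
        sqF G p (4 ^ j * n) o ω + ENNReal.ofReal (2 / (4 ^ j * n) * (2 ^ j * r))) ∂μ ≤
        ENNReal.ofReal (4 * Real.sqrt (d + 1) / Real.sqrt n * (1 / 2) ^ j) := fun j => by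
      rw [lintegral_add_left ((measurable_sqF _ _ o).const_mul _),
        lintegral_const_mul _ (measurable_sqF _ _ o), lintegral_const, measure_univ, mul_one]
      refine (add_le_add (mul_le_mul' le_rfl (moment p hd _ o)) le_rfl).trans ?_
      rw [← ENNReal.ofReal_mul (by positivity), ← ENNReal.ofReal_add (by positivity) (by positivity)]
      refine ENNReal.ofReal_le_ofReal ?_
      have hm : ((d * (4 ^ j * n) + 1 : ℕ) : ℝ) ≤ (2 ^ j * r) ^ 2 := by
        rw [hr, mul_pow, mul_pow, Real.sq_sqrt (by positivity), Real.sq_sqrt (by positivity),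
          ← pow_mul, mul_comm j 2, pow_mul]
        push_cast
        have : (1 : ℝ) ≤ 4 ^ j * n := by
          exact_mod_cast Nat.one_le_iff_ne_zero.2 (Nat.mul_ne_zero (by positivity) hn.ne')
        norm_num
        nlinarith
      calc 2 / (4 ^ j * (n : ℝ)) / (2 ^ j * r) * ((d * (4 ^ j * n) + 1 : ℕ) : ℝ) +
            2 / (4 ^ j * n) * (2 ^ j * r)
          ≤ 2 / (4 ^ j * (n : ℝ)) / (2 ^ j * r) * (2 ^ j * r) ^ 2 + 2 / (4 ^ j * n) * (2 ^ j * r) :=
            add_le_add (mul_le_mul_of_nonneg_left hm (by positivity)) le_rfl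
        _ = _ := by
            rw [hr, div_pow, one_pow, show (4 : ℝ) ^ j = 2 ^ j * 2 ^ j by
              rw [← mul_pow]; norm_num]
            field_simp
            rw [Real.sq_sqrt hn'.le]
            ring
    refine (ENNReal.tsum_le_tsum hterm).trans (le_of_eq ?_)
    rw [← ENNReal.ofReal_tsum_of_nonneg (fun j => by positivity)
      (summable_geometric_two.mul_left _), tsum_mul_left, tsum_geometric_two]
    congr 1
    ring
  calc |∫ ω, g ω ∂μ| ≤ (∫⁻ ω, ENNReal.ofReal |g ω| ∂μ).toReal := by
        simpa [Real.norm_eq_abs] using norm_integral_le_lintegral_norm g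
    _ ≤ _ := ENNReal.toReal_le_of_le_ofReal (by positivity) hsum

end P151
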