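import Vale.Agent.P151.Moment

/-!
# P151: the two-ghost inequality and joining along walks
-/

namespace P151

open MeasureTheory ProbabilityTheory SimpleGraph P165
open scoped ENNReal Classical

variable {V : Type*} {G : SimpleGraph V} [G.LocallyFinite] [Countable V]
variable {Γ : Type*} [Group Γ] [MulAction Γ V]

omit [Countable V] [G.LocallyFinite] in
lemma openGraph_insert_adj {ω : Set (Sym2 V)} {a b : V} (hab : G.Adj a b) :
    (openGraph G (insert s(a, b) ω)).Adj a b :=
  openGraph_adj.2 ⟨hab, Set.mem_insert _ _⟩

omit [Countable V] [G.LocallyFinite] in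
lemma cluster_insert {ω : Set (Sym2 V)} {a b : V} (hab : G.Adj a b) :
    cluster G (insert s(a, b) ω) a = cluster G ω a ∪ cluster G ω b := by
  have hle : openGraph G ω ≤ openGraph G (insert s(a, b) ω) :=
    openGraph_mono G (Set.subset_insert _ _)
  ext z
  constructor
  · intro hz
    obtain ⟨w⟩ := hz
    suffices h : ∀ {x y : V} (w : (openGraph G (insert s(a, b) ω)).Walk x y),
        x ∈ cluster G ω a ∪ cluster G ω b → y ∈ cluster G ω a ∪ cluster G ω b from
      h w (Or.inl mem_cluster_self)
    intro x y w
    induction w with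
    | nil => exact id
    | @cons u v t h q ih =>
      intro hu
      refine ih ?_
      obtain ⟨hA, he⟩ := openGraph_adj.1 h
      rcases Set.mem_insert_iff.1 he with he | he
      · rcases Sym2.eq_iff.1 he with ⟨rfl, rfl⟩ | ⟨rfl, rfl⟩
        · exact Or.inr mem_cluster_self
        · exact Or.inl mem_cluster_self
      · have := (openGraph_adj.2 ⟨hA, he⟩ : (openGraph G ω).Adj u v).reachable
        rcases hu with hu | hu
        · exact Or.inl (Reachable.trans hu this)
        · exact Or.inr (Reachable.trans hu this)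
  · rintro (hz | hz)
    · exact hz.mono hle
    · exact (openGraph_insert_adj hab).reachable.trans (hz.mono hle)

/-- The union of two clusters. -/
noncomputable def join : Option (Finset V) → Option (Finset V) → Option (Finset V)
  | some S, some T => some (S ∪ T)
  | _, _ => none

omit [Countable V] [G.LocallyFinite] in
lemma kc_insert {ω : Set (Sym2 V)} {a b : V} (hab : G.Adj a b) :
    kc G a (insert s(a, b) ω) = join (kc G a ω) (kc G b ω) := by
  rcases ha : kc G a ω with _ | S <;> rcases hb : kc G b ω with _ | T <;> simp only [join]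
  all_goals first
    | rw [kc_eq_some, cluster_insert hab, kc_eq_some.1 ha, kc_eq_some.1 hb, Finset.coe_union]
    | (rw [kc_eq_none, cluster_insert hab, Set.infinite_union]
       first | exact Or.inl (kc_eq_none.1 ha) | exact Or.inr (kc_eq_none.1 hb))

/-- The contribution of an edge from both ends. -/
noncomputable def pairTerm (G : SimpleGraph V) (p : ℝ) (n : ℕ) (x y : V) (ω : Set (Sym2 V)) : ℝ :=
  wN n (kc G x ω) * dart G p x y ω + wN n (kc G y ω) * dart G p y x ω

omit [Countable V] [G.LocallyFinite] in
/-- The exact cancellation: opening an edge merges, and the capped weight is subadditive. -/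
lemma pointwise {p : ℝ} (h0 : 0 ≤ p) (h1 : p ≤ 1) {n : ℕ} (hn : 0 < n) {x y : V}
    (hxy : G.Adj x y) (ω : Set (Sym2 V)) :
    p * (1 - p) * (if ω \ {s(x, y)} ∈ D G n x y then 1 else 0) ≤
      p * pairTerm G p n x y (insert s(x, y) ω) +
        (1 - p) * pairTerm G p n x y (ω \ {s(x, y)}) := by
  set ω₀ := ω \ {s(x, y)} with hω₀
  have hins : insert s(x, y) ω = insert s(x, y) ω₀ := by
    rw [hω₀, Set.insert_sdiff_singleton]
  have hmem : s(x, y) ∉ ω₀ := fun h => h.2 rfl
  have hr1 : (openGraph G (insert s(x, y) ω₀)).Reachable x y :=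
    (openGraph_insert_adj hxy).reachable
  have hk1 := kc_congr (G := G) hr1
  set U := kc G x (insert s(x, y) ω₀) with hU
  set A := kc G x ω₀ with hA
  set B := kc G y ω₀ with hB
  have hU' : U = join A B := kc_insert hxy
  have hsub : wN n U ≤ if (openGraph G ω₀).Reachable x y then wN n A else wN n A + wN n B := by
    split_ifs with hr
    · rw [hU']
      have e : A = B := kc_congr hr
      cases hA' : A with
      | none => simp [wN, join]
      | some S => rw [hA'] at e; rw [← e]; simp [join]
    · rw [hU']
      cases A with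
      | none => cases B with
        | none => simp [wN, join]
        | some T => simpa [wN, join] using wN_nonneg n (some T)
      | some S => cases B with
        | none => simpa [wN, join] using wN_nonneg n (some S)
        | some T =>
          show wN n (some (S ∪ T)) ≤ wN n (some S) + wN n (some T)
          simp only [wN]
          have hle : (((S ∪ T).card : ℝ)) / n ≤ (S.card : ℝ) / n + (T.card : ℝ) / n := by
            rw [← add_div]
            gcongr
            exact_mod_cast Finset.card_union_le S T
          rcases min_choice ((S.card : ℝ) / n) 1 with e | e <;>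
            rcases min_choice ((T.card : ℝ) / n) 1 with e' | e' <;> rw [e, e'] <;>
            linarith [min_le_left (((S ∪ T).card : ℝ) / n) 1,
              min_le_right (((S ∪ T).card : ℝ) / n) 1,
              show (0 : ℝ) ≤ (S.card : ℝ) / n by positivity,
              show (0 : ℝ) ≤ (T.card : ℝ) / n by positivity]
  rw [hins]
  simp only [pairTerm, dart, if_pos hxy, if_pos hxy.symm, if_pos hr1, if_pos hr1.symm, ← hU, ← hk1,
    ← hA, ← hB, Sym2.eq_swap (a := y) (b := x), cE, if_pos (Set.mem_insert _ _), if_neg hmem]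
  by_cases hr : (openGraph G ω₀).Reachable x y
  · rw [if_neg (fun h : ω₀ ∈ D G n x y => h.1 hr), if_pos hr, if_pos hr.symm,
      show B = A from (kc_congr hr).symm]
    rw [if_pos hr] at hsub
    nlinarith [mul_nonneg h0 (sub_nonneg.2 h1), mul_le_mul_of_nonneg_left hsub
      (mul_nonneg h0 (sub_nonneg.2 h1))]
  · rw [if_neg hr, if_neg (fun h => hr (Reachable.symm h))]
    rw [if_neg hr] at hsub
    by_cases hD : ω₀ ∈ D G n x y
    · rw [if_pos hD]
      obtain ⟨-, hbx, hby, hfin⟩ := hD
      rw [← hA] at hbx hfin
      rw [← hB] at hby hfin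
      have hgain : wN n U + 1 ≤ wN n A + wN n B := by
        rw [hU']
        cases hA' : A with
        | none =>
          have hB' : B ≠ none := hfin.resolve_left (fun h => h hA')
          simp only [join, wN]
          have := wN_eq_one hn hby hB'
          cases hB'' : B with
          | none => exact absurd hB'' hB'
          | some T => rw [hB''] at this; simp only [wN] at this; linarith
        | some S =>
          rw [hA'] at hbx
          have a1 := wN_eq_one hn hbx (Option.some_ne_none S)
          cases hB'' : B with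
          | none => simp only [join, wN] at a1 ⊢; linarith
          | some T =>
            rw [hB''] at hby
            have a2 := wN_eq_one hn hby (Option.some_ne_none T)
            have a3 := wN_le_one n (some (S ∪ T))
            simp only [join] at a3 ⊢
            linarith
      nlinarith [mul_le_mul_of_nonneg_left hgain (mul_nonneg h0 (sub_nonneg.2 h1))]
    · rw [if_neg hD]
      nlinarith [mul_le_mul_of_nonneg_left hsub (mul_nonneg h0 (sub_nonneg.2 h1))]

lemma measurableSet_D (n : ℕ) (x y : V) : MeasurableSet (D G n x y) := by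
  refine (measurableSet_conn G x y).compl.inter ?_
  exact (measurableSet_kc x (Big n)).inter ((measurableSet_kc y (Big n)).inter
    ((measurableSet_kc x fun K => K ≠ none).union (measurableSet_kc y fun K => K ≠ none)))

omit [Countable V] [G.LocallyFinite] in
lemma measurable_ins (e : Sym2 V) : Measurable fun ω : Set (Sym2 V) => insert e ω :=
  measurable_set_iff.2 fun i => by
    simp only [Set.mem_insert_iff]; exact measurable_const.or (measurable_set_mem i)

omit [Countable V] [G.LocallyFinite] in
lemma measurable_era (e : Sym2 V) : Measurable fun ω : Set (Sym2 V) => ω \ {e} :=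
  measurable_set_iff.2 fun i => by
    simp only [Set.mem_sdiff]; exact (measurable_set_mem i).and measurable_const

omit [Countable V] [G.LocallyFinite] in
lemma integrable_bdd {μ : Measure (Set (Sym2 V))} [IsFiniteMeasure μ] {f : Set (Sym2 V) → ℝ}
    (hf : Measurable f) (C : ℝ) (hC : ∀ ω, |f ω| ≤ C) : Integrable f μ :=
  Integrable.mono' (integrable_const C) hf.aestronglyMeasurable (ae_of_all _ hC)

omit [Countable V] [G.LocallyFinite] in
lemma split_real (p : unitInterval) {e : Sym2 V} (he : e ∈ G.edgeSet) {f : Set (Sym2 V) → ℝ}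
    (hf : Measurable f) (C : ℝ) (hC : ∀ ω, |f ω| ≤ C) :
    ∫ ω, f ω ∂setBer(G.edgeSet, p) = (p : ℝ) * ∫ ω, f (insert e ω) ∂setBer(G.edgeSet, p) +
      (1 - p) * ∫ ω, f (ω \ {e}) ∂setBer(G.edgeSet, p) := by
  set μ := setBer(G.edgeSet, p)
  have h0 : ∀ ω, 0 ≤ f ω + C := fun ω => by linarith [neg_le_of_abs_le (hC ω)]
  have hi := measurable_ins (V := V) e
  have hr := measurable_era (V := V) e
  have key := congrArg ENNReal.toReal
    (split_edge G.edgeSet p he (hf.add_const C).ennreal_ofReal)
  have t : ∀ {g : Set (Sym2 V) → ℝ}, Measurable g → (∀ ω, |g ω| ≤ C) → (∀ ω, 0 ≤ g ω + C) →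
      (∫⁻ ω, ENNReal.ofReal (g ω + C) ∂μ).toReal = ∫ ω, g ω ∂μ + C := by
    intro g hg hgC hg0
    rw [← integral_eq_lintegral_of_nonneg_ae (ae_of_all _ hg0) (hg.add_const C).aestronglyMeasurable,
      integral_add (integrable_bdd hg C hgC) (integrable_const C), integral_const]
    simp
  rw [ENNReal.toReal_add (ENNReal.mul_ne_top ENNReal.ofReal_ne_top ?_)
      (ENNReal.mul_ne_top ENNReal.ofReal_ne_top ?_), ENNReal.toReal_mul, ENNReal.toReal_mul,
    ENNReal.toReal_ofReal p.2.1, ENNReal.toReal_ofReal (sub_nonneg.2 p.2.2), t hf hC h0,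
    t (hf.fun_comp hi) (fun ω => hC _) (fun ω => h0 _),
    t (hf.fun_comp hr) (fun ω => hC _) (fun ω => h0 _)] at key
  · linarith
  all_goals
    refine (lintegral_mono fun ω => ENNReal.ofReal_le_ofReal (?_ : f _ + C ≤ 2 * C)).trans_lt
      (by rw [lintegral_const, measure_univ, mul_one]; exact ENNReal.ofReal_lt_top) |>.ne
    linarith [le_of_abs_le (hC (insert e ω)), le_of_abs_le (hC (ω \ {e}))]

omit [Countable V] [G.LocallyFinite] in
lemma integral_ind_comp {μ : Measure (Set (Sym2 V))} {f : Set (Sym2 V) → Set (Sym2 V)}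
    (hf : Measurable f) {S : Set (Set (Sym2 V))} (hS : MeasurableSet S) :
    ∫ ω, S.indicator (1 : Set (Sym2 V) → ℝ) (f ω) ∂μ = μ.real {ω | f ω ∈ S} := by
  rw [show {ω | f ω ∈ S} = f ⁻¹' S from rfl, ← integral_indicator_one (hf hS)]
  exact integral_congr_ae (ae_of_all _ fun ω => by simp [Set.indicator_apply])

/-- The two-ghost inequality. -/
lemma two_ghost (h : Unimod G Γ) (hc : G.Connected) (p : unitInterval) (hp : 0 < (p : ℝ)) {d : ℕ}
    (hd : ∀ x, (G.neighborFinset x).card ≤ d) {n : ℕ} (hn : 0 < n) {x y : V} (hxy : G.Adj x y) :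
    (setBer(G.edgeSet, p)).real (D G n x y) ≤
      16 * Real.sqrt (d + 1) / ((p : ℝ) * Real.sqrt n) := by
  set μ := setBer(G.edgeSet, p)
  have h0 := p.2.1
  have h1 := p.2.2
  set F : V → V → Set (Sym2 V) → ℝ := fun a b ω => wN n (kc G a ω) * dart G (p : ℝ) a b ω
  have hFm : ∀ a b, Measurable (F a b) := fun a b => by
    refine (measurable_kc_comp a (wN n)).mul ?_
    unfold dart
    by_cases hab : G.Adj a b
    · simp only [if_pos hab]
      exact (Measurable.ite (measurableSet_conn G a b) measurable_const measurable_const).mul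
        (measurable_cE _ _)
    · simp only [if_neg hab]; exact measurable_const
  have hFB : ∀ a b ω, |F a b ω| ≤ 1 := fun a b ω => by
    simp only [F, abs_mul]
    exact mul_le_one₀ (abs_le.2 ⟨by linarith [wN_nonneg n (kc G a ω)], wN_le_one n _⟩) (abs_nonneg _)
      (abs_dart h0 h1 a b ω)
  have hinvd : ∀ (g : Γ) a b ω,
      dart G (p : ℝ) (g • a) (g • b) (mv h g ω) = dart G (p : ℝ) a b ω := fun g a b ω => by
    simp only [dart, cE, h.adj g a b, reachable_mv h, mem_mv h]
  have hinvw : ∀ (g : Γ) a ω, wN n (kc G (g • a) (mv h g ω)) = wN n (kc G a ω) := fun g a ω => by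
    rw [kc_mv]
    cases kc G a ω with
    | none => rfl
    | some S => simp [wN, card_mvS]
  have hFinv : ∀ (g : Γ) a b ω, F (g • a) (g • b) (mv h g ω) = F a b ω := fun g a b ω => by
    simp only [F, hinvd, hinvw]
  -- the two directions
  have hswap := swap_avg h hc p F 1 hFB hFm hFinv x
  have hsum : ∑ b ∈ G.neighborFinset x, ∫ ω, F x b ω ∂μ =
      ∫ ω, (kc G x ω).elim 0 (fun K => min ((K.card : ℝ) / n) 1 / K.card * fluc G p K ω) ∂μ := by
    rw [← integral_finsetSum _ fun b _ => integrable_bdd (hFm x b) 1 (hFB x b)]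
    have havg := cluster_avg h hc p (fun k => min ((k : ℝ) / n) 1)
      (fun k => le_min (by positivity) zero_le_one) (fun k => min_le_right _ _)
      (fun a ω => ∑ b ∈ G.neighborFinset a, dart G p a b ω) d
      (fun a ω => ((Finset.abs_sum_le_sum_abs _ _).trans (Finset.sum_le_card_nsmul _ _ 1
        fun b _ => abs_dart h0 h1 a b ω)).trans (by simpa using hd a))
      (fun a => Finset.measurable_sum _ fun b _ => by
        unfold dart
        by_cases hab : G.Adj a b
        · simp only [if_pos hab]
          exact (Measurable.ite (measurableSet_conn G a b) measurable_const measurable_const).mul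
            (measurable_cE _ _)
        · simp only [if_neg hab]; exact measurable_const)
      (fun g a ω => by
        have : G.neighborFinset (g • a) = mvS g (G.neighborFinset a) := by
          ext z
          obtain ⟨b, rfl⟩ : ∃ b, g • b = z := ⟨g⁻¹ • z, smul_inv_smul g z⟩
          simp [mvS, h.adj g a b]
        rw [this, mvS, Finset.sum_image (MulAction.injective g).injOn]
        simp only [hinvd]) x
    refine ((integral_congr_ae (ae_of_all _ fun ω => ?_)).trans havg).trans
      (integral_congr_ae (ae_of_all _ fun ω => ?_))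
    · simp only [F, ← Finset.mul_sum]
      cases kc G x ω <;> simp [wN]
    · dsimp only
      cases hS : kc G x ω with
      | none => rfl
      | some S => simp only [Option.elim_some, sum_dart hS]
  have htot : ∑ b ∈ G.neighborFinset x, ∫ ω, pairTerm G p n x b ω ∂μ ≤
      2 * (8 * Real.sqrt (d + 1) / Real.sqrt n) := by
    have : ∀ b, ∫ ω, pairTerm G p n x b ω ∂μ = ∫ ω, F x b ω ∂μ + ∫ ω, F b x ω ∂μ := fun b =>
      integral_add (integrable_bdd (hFm x b) 1 (hFB x b)) (integrable_bdd (hFm b x) 1 (hFB b x))
    simp only [this, Finset.sum_add_distrib, ← hswap, hsum]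
    linarith [le_of_abs_le (weighted_fluc (G := G) p hd hn x)]
  have hpair : ∀ b ∈ G.neighborFinset x,
      (p : ℝ) * (1 - p) * μ.real {ω | ω \ {s(x, b)} ∈ D G n x b} ≤
        ∫ ω, pairTerm G p n x b ω ∂μ := by
    intro b hb
    have hab := (G.mem_neighborFinset x b).1 hb
    have hm : Measurable (pairTerm G (p : ℝ) n x b) := (hFm x b).add (hFm b x)
    have hB2 : ∀ ω, |pairTerm G (p : ℝ) n x b ω| ≤ 2 := fun ω =>
      (abs_add_le _ _).trans (by linarith [hFB x b ω, hFB b x ω] : _ ≤ (2 : ℝ))
    have hS : MeasurableSet {ω : Set (Sym2 V) | ω \ {s(x, b)} ∈ D G n x b} :=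
      measurable_era _ (measurableSet_D n x b)
    rw [split_real p (show s(x, b) ∈ G.edgeSet from hab) hm 2 hB2, ← integral_indicator_one hS,
      ← integral_const_mul, ← integral_const_mul, ← integral_const_mul,
      ← integral_add
        ((integrable_bdd (hm.fun_comp (measurable_ins _)) 2 fun ω => hB2 _).const_mul _)
        ((integrable_bdd (hm.fun_comp (measurable_era _)) 2 fun ω => hB2 _).const_mul _)]
    refine integral_mono (((integrable_const (1 : ℝ)).indicator hS).const_mul _)
      (((integrable_bdd (hm.fun_comp (measurable_ins _)) 2 fun ω => hB2 _).const_mul _).add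
        ((integrable_bdd (hm.fun_comp (measurable_era _)) 2 fun ω => hB2 _).const_mul _)) fun ω => ?_
    simpa [Set.indicator_apply] using pointwise h0 h1 hn hab ω
  have hone : (p : ℝ) * (1 - p) * μ.real {ω | ω \ {s(x, y)} ∈ D G n x y} ≤
      2 * (8 * Real.sqrt (d + 1) / Real.sqrt n) :=
    ((Finset.single_le_sum (f := fun b => (p : ℝ) * (1 - p) *
      μ.real {ω | ω \ {s(x, b)} ∈ D G n x b})
      (fun b _ => mul_nonneg (mul_nonneg h0 (sub_nonneg.2 h1)) measureReal_nonneg)
      ((G.mem_neighborFinset x y).2 hxy)).trans (Finset.sum_le_sum hpair)).trans htot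
  have hclosed : μ.real (D G n x y) = (1 - p) * μ.real {ω | ω \ {s(x, y)} ∈ D G n x y} := by
    rw [← integral_indicator_one (measurableSet_D n x y),
      split_real p (show s(x, y) ∈ G.edgeSet from hxy)
        (measurable_one.indicator (measurableSet_D n x y)) 1
        (fun ω => by rw [Set.indicator_apply]; split_ifs <;> simp),
      integral_ind_comp (measurable_era _) (measurableSet_D n x y)]
    have : ∀ ω, (D G n x y).indicator (1 : Set (Sym2 V) → ℝ) (insert s(x, y) ω) = 0 := fun ω =>
      Set.indicator_of_notMem (fun hD => hD.1 (openGraph_insert_adj hxy).reachable) _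
    simp only [this, integral_zero, mul_zero, zero_add]
    rfl
  rw [hclosed, le_div_iff₀ (by positivity)]
  calc (1 - (p : ℝ)) * μ.real {ω | ω \ {s(x, y)} ∈ D G n x y} * ((p : ℝ) * Real.sqrt n)
      = (p : ℝ) * (1 - p) * μ.real {ω | ω \ {s(x, y)} ∈ D G n x y} * Real.sqrt n := by ring
    _ ≤ 2 * (8 * Real.sqrt (d + 1) / Real.sqrt n) * Real.sqrt n :=
        mul_le_mul_of_nonneg_right hone (Real.sqrt_nonneg _)
    _ = 16 * Real.sqrt (d + 1) := by field_simp; ring

omit [Countable V] [G.LocallyFinite] in
/-- Opening an edge costs at most `1/p`. -/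
lemma cost_open (p : unitInterval) (hp : 0 < (p : ℝ)) {e : Sym2 V} (he : e ∈ G.edgeSet)
    {S : Set (Set (Sym2 V))} (hS : MeasurableSet S) :
    (setBer(G.edgeSet, p)).real {ω | insert e ω ∈ S} ≤ (setBer(G.edgeSet, p)).real S / p := by
  rw [le_div_iff₀ hp, mul_comm, ← integral_indicator_one hS,
    split_real p he (measurable_one.indicator hS) 1
      (fun ω => by rw [Set.indicator_apply]; split_ifs <;> simp),
    integral_ind_comp (measurable_ins e) hS]
  exact le_add_of_nonneg_right (mul_nonneg (sub_nonneg.2 p.2.2)
    (integral_nonneg fun ω => Set.indicator_nonneg (fun _ _ => zero_le_one) _))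

omit [Countable V] [G.LocallyFinite] in
lemma D_step {n : ℕ} {a b c : V} (hab : G.Adj a b) :
    D G n a c ⊆ D G n a b ∪ {ω | insert s(a, b) ω ∈ D G n b c} := by
  rintro ω ⟨hnc, hba, hbc, hfin⟩
  by_cases hab' : (openGraph G ω).Reachable a b
  · right
    have hl : (openGraph G ω) = openGraph G (insert s(a, b) ω) ∨ s(a, b) ∉ ω := by
      by_cases he : s(a, b) ∈ ω
      · exact Or.inl (by rw [Set.insert_eq_of_mem he])
      · exact Or.inr he
    have hclus : ∀ z, cluster G (insert s(a, b) ω) z = cluster G ω z := by
      intro z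
      ext w
      refine ⟨fun hw => ?_, fun hw => hw.mono (openGraph_mono G (Set.subset_insert _ _))⟩
      obtain ⟨q⟩ := hw
      induction q with
      | nil => exact mem_cluster_self
      | @cons u v t h q ih =>
        obtain ⟨hA, he⟩ := openGraph_adj.1 h
        refine Reachable.trans ?_ ih
        rcases Set.mem_insert_iff.1 he with he | he
        · rcases Sym2.eq_iff.1 he with ⟨rfl, rfl⟩ | ⟨rfl, rfl⟩
          · exact hab'
          · exact hab'.symm
        · exact (openGraph_adj.2 ⟨hA, he⟩ : (openGraph G ω).Adj u v).reachable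
    have hkc : ∀ z, kc G z (insert s(a, b) ω) = kc G z ω := fun z => by
      simp only [kc, hclus z]
    refine ⟨fun hr => hnc (hab'.trans ?_), ?_, ?_, ?_⟩
    · exact (Set.ext_iff.1 (hclus b) c).1 hr
    · rw [hkc, ← kc_congr hab']; exact hba
    · rw [hkc]; exact hbc
    · rw [hkc, hkc, ← kc_congr hab']; exact hfin
  by_cases hbc' : (openGraph G ω).Reachable b c
  · left
    exact ⟨hab', hba, by rw [kc_congr hbc']; exact hbc, by rw [kc_congr hbc']; exact hfin⟩
  have hU : cluster G (insert s(a, b) ω) b = cluster G ω a ∪ cluster G ω b := by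
    rw [← cluster_insert hab]
    exact (cluster_eq (openGraph_insert_adj hab).reachable).symm
  have hc' : cluster G (insert s(a, b) ω) c = cluster G ω c := by
    ext w
    refine ⟨fun hw => ?_, fun hw => hw.mono (openGraph_mono G (Set.subset_insert _ _))⟩
    suffices h : ∀ {u t : V} (_ : (openGraph G (insert s(a, b) ω)).Walk u t),
        (openGraph G ω).Reachable c u → (openGraph G ω).Reachable c t by
      obtain ⟨q⟩ := hw
      exact h q (Reachable.refl c)
    intro u t q
    induction q with
    | nil => exact id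
    | @cons u v t h q ih =>
      intro hu
      refine ih ?_
      obtain ⟨hA, he⟩ := openGraph_adj.1 h
      rcases Set.mem_insert_iff.1 he with he | he
      · rcases Sym2.eq_iff.1 he with ⟨rfl, rfl⟩ | ⟨rfl, rfl⟩
        · exact absurd hu.symm hnc
        · exact absurd hu.symm hbc'
      · exact hu.trans (openGraph_adj.2 ⟨hA, he⟩ : (openGraph G ω).Adj u v).reachable
  by_cases hA : kc G a ω = none
  · right
    refine ⟨fun hr => ?_, ?_, ?_, ?_⟩
    · rcases (Set.ext_iff.1 hU c).1 hr with h | h
      · exact hnc h
      · exact hbc' h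
    · have : kc G b (insert s(a, b) ω) = none := by
        rw [kc_eq_none, hU]; exact Set.infinite_union.2 (Or.inl (kc_eq_none.1 hA))
      rw [this]; trivial
    · rw [show kc G c (insert s(a, b) ω) = kc G c ω by simp only [kc, hc']]; exact hbc
    · right
      rw [show kc G c (insert s(a, b) ω) = kc G c ω by simp only [kc, hc']]
      exact hfin.resolve_left (fun h => h hA)
  by_cases hB : kc G b ω = none
  · left
    exact ⟨hab', hba, by rw [hB]; trivial, Or.inl hA⟩
  right
  obtain ⟨S, hS⟩ := Option.ne_none_iff_exists'.1 hA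
  obtain ⟨T, hT⟩ := Option.ne_none_iff_exists'.1 hB
  have hk : kc G b (insert s(a, b) ω) = some (S ∪ T) := by
    rw [kc_eq_some, hU, kc_eq_some.1 hS, kc_eq_some.1 hT, Finset.coe_union]
  refine ⟨fun hr => ?_, ?_, ?_, Or.inl (by rw [hk]; exact Option.some_ne_none _)⟩
  · rcases (Set.ext_iff.1 hU c).1 hr with h | h
    · exact hnc h
    · exact hbc' h
  · rw [hk]
    rw [hS] at hba
    exact le_trans hba (Finset.card_le_card Finset.subset_union_left)
  · rw [show kc G c (insert s(a, b) ω) = kc G c ω by simp only [kc, hc']]; exact hbc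

/-- Joining along a walk. -/
lemma walk_bound (h : Unimod G Γ) (hc : G.Connected) (p : unitInterval) (hp : 0 < (p : ℝ)) {d : ℕ}
    (hd : ∀ x, (G.neighborFinset x).card ≤ d) {n : ℕ} (hn : 0 < n) :
    ∀ {x z : V} (w : G.Walk x z), (setBer(G.edgeSet, p)).real (D G n x z) ≤
      w.length * (1 / (p : ℝ)) ^ w.length * (16 * Real.sqrt (d + 1) / ((p : ℝ) * Real.sqrt n)) := by
  set μ := setBer(G.edgeSet, p)
  set ε := 16 * Real.sqrt (d + 1) / ((p : ℝ) * Real.sqrt n)
  have hε : 0 ≤ ε := by positivity
  have hip : (1 : ℝ) ≤ 1 / p := by rw [le_div_iff₀ hp, one_mul]; exact p.2.2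
  intro x z w
  induction w with
  | @nil u =>
    have : D G n u u = ∅ := Set.eq_empty_iff_forall_notMem.2 fun ω hω => hω.1 (Reachable.refl u)
    simp [this]
  | @cons a b c hab q ih =>
    have h1 : μ.real (D G n a c) ≤ μ.real (D G n a b) + μ.real (D G n b c) / p :=
      ((measureReal_mono (D_step hab)).trans (measureReal_union_le _ _)).trans
        (add_le_add le_rfl (cost_open p hp (show s(a, b) ∈ G.edgeSet from hab)
          (measurableSet_D n b c)))
    have h2 : μ.real (D G n b c) / p ≤ q.length * (1 / (p : ℝ)) ^ (q.length + 1) * ε := by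
      rw [div_eq_mul_one_div]
      calc μ.real (D G n b c) * (1 / (p : ℝ)) ≤ q.length * (1 / (p : ℝ)) ^ q.length * ε * (1 / p) :=
            mul_le_mul_of_nonneg_right ih (le_trans zero_le_one hip)
        _ = _ := by ring
    have h3 : ε ≤ (1 / (p : ℝ)) ^ (q.length + 1) * ε :=
      le_mul_of_one_le_left hε (one_le_pow₀ hip)
    rw [Walk.length_cons]
    push_cast
    linarith [two_ghost h hc p hp hd hn hab]

end P151
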